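import Mathlib

/-!
# Definitions for the `ℓ¹`-Bass conjecture and its strong form for rapid decay
-/

namespace Vale.Agent.P184.Rd

universe u v

variable {G : Type*} [Group G]

/-- Matrices of functions on `G`. -/
abbrev Mat (G : Type*) (q : ℕ) := Matrix (Fin q) (Fin q) (G → ℂ)

/-- The entries of `a` are in `ℓ¹(G)`. -/
def InL1 {q : ℕ} (a : Mat G q) : Prop := ∀ i j, Summable fun g => ‖a i j g‖

/-- The product of matrices over `ℓ¹(G)`. -/
noncomputable def mul {q : ℕ} (a b : Mat G q) : Mat G q := fun i j g =>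
  ∑ k, ∑' h, a i k h * b k j (h⁻¹ * g)

open Classical in
/-- The unit matrix over `ℓ¹(G)`. -/
noncomputable def unit (G : Type*) [Group G] (q : ℕ) : Mat G q := fun i j g =>
  if i = j ∧ g = 1 then 1 else 0

/-- `e` is an idempotent matrix over `ℓ¹(G)`. -/
def IsIdem {q : ℕ} (e : Mat G q) : Prop := InL1 e ∧ mul e e = e

/-- `u` is an invertible matrix over `ℓ¹(G)` with inverse `v`. -/
def IsInv {q : ℕ} (u v : Mat G q) : Prop :=
  InL1 u ∧ InL1 v ∧ mul u v = unit G q ∧ mul v u = unit G q

/-- The coefficient of the Hattori-Stallings trace of `e` at the conjugacy class `C`. -/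
noncomputable def tau {q : ℕ} (C : ConjClasses G) (e : Mat G q) : ℂ :=
  ∑' g : C.carrier, ∑ i, e i i g

variable (G) in
/-- The `ℓ¹`-Bass conjecture for the group `G`. -/
def L1Bass : Prop :=
  ∀ (q : ℕ) (e : Mat G q), IsIdem e → ∃ F : Finset (ConjClasses G),
    (∀ C ∈ F, ∀ g ∈ C.carrier, IsOfFinOrder g) ∧ ∀ C ∉ F, tau C e = 0

/-- The part `S` of the multiplication table of `G` lifts to the group `H`, which maps to `G`. -/
def Lifts (H : Type*) [Group H] (S : Finset G) : Prop :=
  ∃ (f : H →* G) (s : G → H), ∀ x ∈ S, f (s x) = x ∧ ∀ y ∈ S, x * y ∈ S → s x * s y = s (x * y)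

/-- The finite parts of the multiplication table of `G` lift to groups which satisfy the
`ℓ¹`-Bass conjecture. -/
def LimBass (G : Type u) [Group G] : Prop :=
  ∀ S : Finset G, ∃ (H : Type v) (_ : Group H), Lifts H S ∧ L1Bass H

/-- The traces of all idempotent matrices over `ℓ¹(G)` vanish at the class of `x`. -/
def VanishesAt (x : G) : Prop :=
  ∀ (q : ℕ) (e : Mat G q), IsIdem e → tau (ConjClasses.mk x) e = 0

/-- `L` is a length function on `G`. -/
def IsLen (L : G → ℝ) : Prop :=
  L 1 = 0 ∧ (∀ g, L g⁻¹ = L g) ∧ ∀ g h, L (g * h) ≤ L g + L h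

/-- The entries of `a` decay rapidly with respect to `L`, i.e. they lie in the algebra
`H^{1,∞}_L(G)`. -/
def RapDecay (L : G → ℝ) {q : ℕ} (a : Mat G q) : Prop :=
  ∀ (k : ℕ) (i j : Fin q), Summable fun g => ‖a i j g‖ * (1 + L g) ^ k

/-- The chain `c` decays rapidly with respect to `L`. -/
def RapChain (L : G → ℝ) {n : ℕ} (c : (Fin n → G) → ℂ) : Prop :=
  ∀ k : ℕ, Summable fun g => ‖c g‖ * (1 + ∑ i, L (g i)) ^ k

/-- The image of the chain `c` under the map `f`. -/
noncomputable def push {α β : Type*} (f : α → β) (c : α → ℂ) (b : β) : ℂ := ∑' a : {a // f a = b}, c a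

/-- The Hochschild boundary of the chain `c` of degree `n + 1`. -/
noncomputable def bdy {n : ℕ} (c : (Fin (n + 2) → G) → ℂ) (g : Fin (n + 1) → G) : ℂ :=
  ∑ j : Fin (n + 1), (-1) ^ (j : ℕ) * push (fun p => j.castSucc.contractNth (· * ·) p) c g +
    (-1) ^ (n + 1) * push (fun p : Fin (n + 2) → G =>
      (Fin.cons (p (Fin.last (n + 1)) * p 0) fun i => p i.castSucc.succ : Fin (n + 1) → G)) c g

/-- The cyclic operator on the chains of degree `n`. -/
def cyc {n : ℕ} (c : (Fin (n + 1) → G) → ℂ) (g : Fin (n + 1) → G) : ℂ :=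
  (-1) ^ n * c fun i => g (finRotate (n + 1) i)

/-- The chain `c` of degree `n` is a boundary in the cyclic complex (chains modulo the image of
`1 - cyc`, with the boundary map `bdy`) of chains which decay rapidly with respect to `L` and are
supported at the tuples whose product is conjugate to `x`. -/
def IsRapBdy (L : G → ℝ) (x : G) {n : ℕ} (c : (Fin (n + 1) → G) → ℂ) : Prop :=
  ∃ (b : (Fin (n + 2) → G) → ℂ) (a : (Fin (n + 1) → G) → ℂ), RapChain L b ∧ RapChain L a ∧
    (∀ g, ¬ IsConj x (List.ofFn g).prod → b g = 0) ∧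
    (∀ g, ¬ IsConj x (List.ofFn g).prod → a g = 0) ∧ ∀ g, c g = bdy b g + (a g - cyc a g)

open Classical in
/-- The component at the conjugacy class of `x` of the chain of degree `n` which is the image of
`a 0 ⊗ ... ⊗ a n` under the trace of matrices. -/
noncomputable def chern (x : G) {q : ℕ} (n : ℕ) (a : ℕ → Mat G q) (g : Fin (n + 1) → G) : ℂ :=
  if IsConj x (List.ofFn g).prod then
    (List.ofFn fun k : Fin (n + 1) => Matrix.of fun i j => a k i j (g k)).prod.trace else 0

/-- The components at `x` of the Chern characters of the idempotents which decay rapidly, in all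
even degrees, are boundaries. -/
def RapEven (L : G → ℝ) (x : G) : Prop :=
  ∀ (m q : ℕ) (e : Mat G q), IsIdem e → RapDecay L e →
    IsRapBdy L x (chern x (2 * m) fun _ => e)

/-- The components at `x` of the Chern characters `tr ((u⁻¹ - 1) ⊗ (u - 1) ⊗ ... ⊗ (u - 1))` of the
invertible matrices `u` such that `u` and its inverse decay rapidly, in all odd degrees, are
boundaries. -/
def RapOdd (L : G → ℝ) (x : G) : Prop :=
  ∀ (m q : ℕ) (u v : Mat G q), IsInv u v → RapDecay L u → RapDecay L v →
    IsRapBdy L x (chern x (2 * m + 1) fun k => if Even k then v - unit G q else u - unit G q)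

variable (G) in
/-- The strong `ℓ¹`-Bass conjecture for `G`, in its form for the algebra `H^{1,∞}_L(G)` of the
functions which decay rapidly with respect to a length function `L` dominating all others, like
the word length of a finitely generated group:
* the classes in `K_0(ℓ¹(G))` are represented by idempotents over this algebra,
* the classes in `K_1(ℓ¹(G))` are represented by invertible matrices `v` over this algebra
  (`v = u w` with `w` at distance less than `1` from the unit),
* the Chern characters of all idempotents and of all invertible matrices over this algebra have,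
  in its cyclic homology, component zero at the classes of the elements of infinite order. -/
def RapBass : Prop :=
  ∃ L : G → ℝ, IsLen L ∧ (∀ L', IsLen L' → ∃ c : ℝ, ∀ g, L' g ≤ c * L g) ∧
    (∀ (q : ℕ) (e : Mat G q), IsIdem e → ∃ f u v : Mat G q,
      IsIdem f ∧ RapDecay L f ∧ InL1 u ∧ InL1 v ∧ mul u v = e ∧ mul v u = f) ∧
    (∀ (q : ℕ) (u u' : Mat G q), IsInv u u' → ∃ v v' w : Mat G q,
      IsInv v v' ∧ RapDecay L v ∧ RapDecay L v' ∧ InL1 w ∧ v = mul u w ∧
      ∑ i, ∑ j, ∑' g, ‖(w - unit G q) i j g‖ < 1) ∧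
    ∀ x : G, ¬ IsOfFinOrder x → RapEven L x ∧ RapOdd L x

/-- The `n`-th power of the periodicity operator annihilates the trace at the class of `x`, for
cochains satisfying the growth condition `gr`: some cyclic cochain `ψ` on the `2 * n`-tuples,
invariant under the centralizer of `x` and changing its sign under the cyclic shift which closes
up the tuples with `x`, has homogeneous coboundary `1`. -/
def CycNil (x : G) (gr : ∀ n : ℕ, ((Fin n → G) → ℝ) → Prop) : Prop :=
  ∃ (n : ℕ) (ψ : (Fin (2 * n) → G) → ℝ), 0 < n ∧ gr (2 * n) ψ ∧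
    (∀ h, Commute h x → ∀ p, ψ (fun i => h * p i) = ψ p) ∧
    (∀ p : ℕ → G, p (2 * n) = x * p 0 → ψ (fun i => p (i + 1)) = -ψ fun i => p i) ∧
    ∀ p : Fin (2 * n + 1) → G,
      ∑ j : Fin (2 * n + 1), (-1) ^ (j : ℕ) * ψ (fun i => p (j.succAbove i)) = 1

/-- `x` is tame in `G`: for some length function `L`, a power of the periodicity operator
annihilates the trace at `x`, with subexponential growth in the quantities `L (p i⁻¹ * p j)` and
`L (p i⁻¹ * x * p i)`. -/
def TameAt (x : G) : Prop :=
  ∃ L : G → ℝ, IsLen L ∧ CycNil x fun n F => ∀ ε : ℝ, 0 < ε → ∃ C : ℝ,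
    ∀ p : Fin n → G, |F p| ≤
      C * Real.exp (ε * ((∑ i, ∑ j, L ((p i)⁻¹ * p j)) + ∑ i, L ((p i)⁻¹ * x * p i)))

/-- `x` is tame in all finitely generated subgroups containing it. -/
def LocTame (x : G) : Prop :=
  ∀ (S : Finset G) (h : x ∈ Subgroup.closure (S : Set G)),
    TameAt (⟨x, h⟩ : Subgroup.closure (S : Set G))

/-- For some length function `L`, a power of the periodicity operator annihilates the trace at
`x`, with polynomial growth in the quantities `L (p i⁻¹ * p j)` and `L (p i⁻¹ * x * p i)`. -/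
def PolyTame (x : G) : Prop :=
  ∃ L : G → ℝ, IsLen L ∧ CycNil x fun n F => ∃ (C : ℝ) (d : ℕ), ∀ p : Fin n → G, |F p| ≤
    C * (1 + ((∑ i, ∑ j, L ((p i)⁻¹ * p j)) + ∑ i, L ((p i)⁻¹ * x * p i))) ^ d

/-- `x` satisfies `PolyTame` in all finitely generated subgroups containing it. -/
def PolyLoc (x : G) : Prop :=
  ∀ (S : Finset G) (h : x ∈ Subgroup.closure (S : Set G)),
    PolyTame (⟨x, h⟩ : Subgroup.closure (S : Set G))

variable (G) in
/-- The elements of infinite order satisfy `PolyLoc`. -/
def PolyInf : Prop := ∀ x : G, ¬ IsOfFinOrder x → PolyLoc x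

/-- For some length function `L` of `G`, the class of `x` has a polynomial conjugacy bound and
a power of the periodicity operator annihilates the trace at `x`, with polynomial growth on the
centralizer. -/
def PolyNilpotent (x : G) : Prop :=
  ∃ L : G → ℝ, IsLen L ∧ (∃ (C : ℝ) (d : ℕ), ∀ p, ∃ h, Commute h x ∧
      L (h⁻¹ * p) ≤ C * (1 + L (p⁻¹ * x * p)) ^ d) ∧
    CycNil x fun n F => ∃ (C : ℝ) (d : ℕ), ∀ p : Fin n → G, (∀ i, Commute (p i) x) →
      |F p| ≤ C * (1 + ∑ i, ∑ j, L ((p i)⁻¹ * p j)) ^ d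

/-- Some power of `x` lies in a subgroup `K` of finite index and has nontrivial image under a
homomorphism from `K` to upper unitriangular real matrices. -/
def VirtUnipotent (x : G) : Prop :=
  ∃ (K : Subgroup G) (m n : ℕ) (ρ : K →* Matrix (Fin n) (Fin n) ℝ) (h : x ^ m ∈ K),
    K.FiniteIndex ∧ (∀ g i j, j ≤ i → ρ g i j = (1 : Matrix (Fin n) (Fin n) ℝ) i j) ∧
      ρ ⟨x ^ m, h⟩ ≠ 1

/-- A real character of the centralizer of `x`, not vanishing at `x`, is dominated by a
subadditive function on `G`. -/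
def Charged (x : G) : Prop :=
  ∃ L φ : G → ℝ, (∀ g h, L (g * h) ≤ L g + L h) ∧
    (∀ g h, Commute g x → Commute h x → φ (g * h) = φ g + φ h) ∧
    (∀ g, Commute g x → φ g ≤ L g) ∧ φ x ≠ 0

/-- `x` is charged in all finitely generated subgroups containing it. -/
def LocCharged (x : G) : Prop :=
  ∀ (S : Finset G) (h : x ∈ Subgroup.closure (S : Set G)),
    Charged (⟨x, h⟩ : Subgroup.closure (S : Set G))

/-- Some finite dimensional representation over `K` maps `x` to a matrix none of whose positive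
powers is unipotent. -/
def LinDetected (x : G) (K : Type*) [Field K] : Prop :=
  ∃ (n : ℕ) (ρ : G →* Matrix (Fin n) (Fin n) K), ∀ m : ℕ, 0 < m → ¬ IsNilpotent (ρ x ^ m - 1)

/-- `y` is the image of a positive power of `x` under a homomorphism from a subgroup of finite
index. -/
def Image {K : Type*} [Group K] (x : G) (y : K) : Prop :=
  ∃ (D : Subgroup G) (m : ℕ) (h : x ^ (m + 1) ∈ D) (f : D →* K),
    D.FiniteIndex ∧ f ⟨x ^ (m + 1), h⟩ = y

/-- `f` is bounded on `C` and invariant under left translation by `D`. -/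
def BddInv (C D : Subgroup G) (f : G → ℝ) : Prop :=
  (∃ K, ∀ c ∈ C, |f c| ≤ K) ∧ ∀ d ∈ D, ∀ c ∈ C, f (d * c) = f c

/-- There is a `C`-invariant mean on the bounded functions on `D \ C`, for subgroups `D ≤ C`
of `G`; for `D = 1` this is the amenability of `C`. -/
def CoAmenable (C D : Subgroup G) : Prop :=
  ∃ m : (G → ℝ) → ℝ,
    (∀ f g, BddInv C D f → BddInv C D g → m (fun c => f c + g c) = m f + m g) ∧
    (∀ f, BddInv C D f → (∀ c ∈ C, 0 ≤ f c) → 0 ≤ m f) ∧ (∀ r : ℝ, m (fun _ => r) = r) ∧
    ∀ f, BddInv C D f → ∀ k ∈ C, m (fun c => f (c * k)) = m f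

/-- The centralizer of `x`. -/
def Cen (x : G) : Subgroup G := Subgroup.centralizer {x}

variable (G) in
/-- Property A of Yu for the discrete group `G` (equivalently, exactness). -/
def PropertyA : Prop :=
  ∀ (S : Finset G) (ε : ℝ), 0 < ε → ∃ (E : Finset G) (a : G → G → ℝ),
    (∀ p q, 0 ≤ a p q) ∧ (∀ p q, a p q ≠ 0 → p⁻¹ * q ∈ E) ∧ (∀ p, ∑ t ∈ E, a p (p * t) = 1) ∧
    ∀ s ∈ S, ∀ p, ∑' q, |a (p * s) q - a p q| ≤ ε

/-- `G` has property A and the centralizer of `x` is amenable. -/
def AmenCentr (x : G) : Prop :=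
  PropertyA G ∧ CoAmenable (Cen x) ⊥

/-- There are a normal subgroup `D` of the centralizer of `x` containing `x` and with amenable
quotient, and a map `u` from `G` to the unit sphere of a finite dimensional space, equivariant
for `D` acting by diagonal unitary matrices, that of `x` without eigenvalue `1`, which varies by
at most `√δ` under right translation by the elements of `S`. -/
def SlowAt (x : G) (S : Finset G) (δ : ℝ) : Prop :=
  ∃ (D : Subgroup G) (n : ℕ) (ζ u : G → Fin n → ℂ),
    x ∈ D ∧ D ≤ Cen x ∧ (∀ c ∈ Cen x, ∀ d ∈ D, c * d * c⁻¹ ∈ D) ∧ CoAmenable (Cen x) D ∧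
    (∀ d j, ‖ζ d j‖ = 1) ∧ (∀ j, ζ x j ≠ 1) ∧ (∀ d ∈ D, ∀ p j, u (d * p) j = ζ d j * u p j) ∧
    (∀ p, ∑ j, ‖u p j‖ ^ 2 = 1) ∧ ∀ s ∈ S, ∀ p, ∑ j, ‖u (p * s) j - u p j‖ ^ 2 ≤ δ

/-- `x` is locally tame, or there are arbitrarily slow maps as in `SlowAt`. -/
def Mild (x : G) : Prop :=
  LocTame x ∨ ∀ (S : Finset G) (δ : ℝ), 0 < δ → SlowAt x S δ

variable (G) in
/-- The elements of infinite order are mild. -/
def MildInf : Prop := ∀ x : G, ¬ IsOfFinOrder x → Mild x

variable (G) in
/-- The elements of infinite order are mild, and for all `S` and `δ` the elements of finite order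
of the subgroup generated by `S` satisfy `SlowAt`, up to finitely many conjugacy classes. -/
def Nice : Prop :=
  MildInf G ∧ ∀ (S : Finset G) (δ : ℝ), 0 < δ → ∃ B : Finset G,
    ∀ x ∈ Subgroup.closure (S : Set G), IsOfFinOrder x → SlowAt x S δ ∨ ∃ b ∈ B, IsConj b x

variable (G) in
/-- `G` is amenable, or its elements of infinite order are mild or satisfy `AmenCentr`, and the
elements of finite order of any finitely generated subgroup satisfy `AmenCentr`, up to finitely
many conjugacy classes. -/
def AlmostAmen : Prop :=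
  CoAmenable (⊤ : Subgroup G) ⊥ ∨ (∀ x : G, ¬ IsOfFinOrder x → Mild x ∨ AmenCentr x) ∧
    ∀ S : Finset G, ∃ B : Finset G, ∀ x ∈ Subgroup.closure (S : Set G), IsOfFinOrder x →
      AmenCentr x ∨ ∃ b ∈ B, IsConj b x

/-- `p` and `q` are joined by a walk of length `n` in the graph with edge relation `R`. -/
def Joined {G : Type*} (R : G → G → Prop) (n : ℕ) (p q : G) : Prop :=
  ∃ w : ℕ → G, w 0 = p ∧ w n = q ∧ ∀ i < n, R (w i) (w (i + 1))

/-- Edges of the Cayley graph of `G` with respect to the letters of `X` and of all the `H k`.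
For `o = some l`, the edges labelled by letters of `H l` between elements of `H l` are left
out. -/
def Adj {ι : Type*} (X : Set G) (H : ι → Subgroup G) (o : Option ι) (p q : G) : Prop :=
  p⁻¹ * q ∈ X ∨ q⁻¹ * p ∈ X ∨ ∃ k, p⁻¹ * q ∈ H k ∧ ¬ (o = some k ∧ p ∈ H k)

/-- `G` is hyperbolic relative to the finite family `H`: for some finite set `X`, the Cayley
graph with respect to `X` and all the `H k` is connected and hyperbolic (`d` is its metric), and
only finitely many elements of `H k` are joined to `1` by walks of given length using no edge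
of the complete graph on `H k`. -/
def IsRelHyp {ι : Type*} (H : ι → Subgroup G) : Prop :=
  Finite ι ∧ ∃ (X : Set G) (d : G → G → ℕ) (δ : ℕ), X.Finite ∧
    (∀ p q, IsLeast {n | Joined (Adj X H none) n p q} (d p q)) ∧
    (∀ a b c e, d a b + d c e ≤ max (d a c + d b e) (d a e + d b c) + δ) ∧
    ∀ k n, {h | h ∈ H k ∧ Joined (Adj X H (some k)) n 1 h}.Finite

/-- The action of `G` on `X` is proper, cocompact and isometric, and `X` satisfies the
Bruhat-Tits (CN) inequality, as `CAT(0)` spaces do. -/
def Cat0Action (G X : Type*) [Group G] [MetricSpace X] [MulAction G X] : Prop :=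
  Nonempty X ∧ (∀ (g : G) (a b : X), dist (g • a) (g • b) = dist a b) ∧
    (∀ p q : X, ∃ m, ∀ z, dist z m ^ 2 ≤ (dist z p ^ 2 + dist z q ^ 2) / 2 - dist p q ^ 2 / 4) ∧
    (∀ a : X, ∃ r > 0, {g : G | dist a (g • a) < r}.Finite) ∧
    ∃ B : Set X, IsCompact B ∧ ∀ a : X, ∃ g : G, g • a ∈ B

end Vale.Agent.P184.Rd
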