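import Vale.Agent.P184.R4.G4

/-!
# Finite index subgroups and powers: polynomial growth
-/

noncomputable section

open scoped Topology

namespace Vale.Agent.P184.PG

open Equiv (Perm)

section Average

variable {G : Type*} [Group G]

theorem avg_growthP {Z : Subgroup G} {N : Subgroup Z} [Fintype (Z ⧸ N)] {L : G → ℝ} {x : G}
    (hL : IsLength L) (hx : ∀ h ∈ Z, Commute h x) {n : ℕ}
    {F : (Fin n → G) → ℝ} (hF : PolyB x L F) : PolyB x L (avg Z N F) :=
  PolyB.smul hL _ (PolyB.sum hL Finset.univ fun s _ => hF.tra (hx _ s.out.2).inv_left)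

theorem cycPol_average {L : G → ℝ} (hL : IsLength L) {x : G} (K : Subgroup G) [K.FiniteIndex]
    {n : ℕ} {ψ : (Fin (2 * n) → G) → ℝ} (hn : 0 < n)
    (h1 : ∀ h ∈ K, Commute h x → ∀ p, ψ (tra h p) = ψ p) (h2 : PolyB x L ψ)
    (h3 : CycAnti x ψ) (h4 : ∀ p, DData.cob ψ p = 1) : CycPol x := by
  classical
  set Z : Subgroup G := Subgroup.centralizer {x} with hZ
  have hZc : ∀ t ∈ Z, Commute (t : G) x := fun t ht =>
    (Subgroup.mem_centralizer_singleton_iff.1 ht)
  set N : Subgroup Z := K.subgroupOf Z with hN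
  have : Finite (Z ⧸ N) := inferInstance
  have := Fintype.ofFinite (Z ⧸ N)
  refine ⟨L, hL, n, avg Z N ψ, hn, fun h hh p => avg_inv (fun k p => h1 _
    (Subgroup.mem_subgroupOf.1 k.2) (hZc _ (k : Z).2) p)
    (Subgroup.mem_centralizer_singleton_iff.2 hh) p, avg_growthP hL hZc h2, ?_, fun p => ?_⟩
  · intro p hp
    unfold avg
    rw [← mul_neg, ← Finset.sum_neg_distrib]
    congr 1
    refine Finset.sum_congr rfl fun s _ => ?_
    refine h3 (fun i => ((s.out : Z) : G)⁻¹ * p i) ?_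
    have h5 := (hZc _ s.out.2).inv_left
    rw [hp, ← mul_assoc, ← mul_assoc, h5.eq]
  · rw [cob_avg]
    unfold avg
    rw [Finset.sum_congr rfl fun (s : Z ⧸ N) _ => h4 _, Finset.sum_const, nsmul_eq_mul,
      Finset.card_univ, mul_one, inv_mul_cancel₀ card_ne]

theorem cycPol_of_finiteIndex (K : Subgroup G) [K.FiniteIndex] {y : K} (h : CycPol y) :
    CycPol (y : G) := by
  obtain ⟨l, hl, n, ψ, hn, h1, h2, h3, h4⟩ := h
  obtain ⟨L, hL, hlip⟩ := exists_pull_length hl (cret K) (finite_cret K)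
  have hlip' : ∀ p q, l ((cret K p)⁻¹ * cret K q) ≤ 1 * L (p⁻¹ * q) + 0 := fun p q => by
    rw [one_mul, add_zero]
    exact hlip p q
  have hr : ∀ p, cret K ((y : G) * p) = y * cret K p := cret_mul K y
  refine cycPol_average hL K (ψ := fun p => ψ fun i => cret K (p i)) hn
    (fun h hh hc p => ?_) (h2.pull hL hl (cret K) hr one_pos hlip') (fun p hp => ?_)
    fun p => h4 fun i => cret K (p i)
  · have h5 := fun p => cret_mul K ⟨h, hh⟩ p
    have h6 := h1 (⟨h, hh⟩ : K) (Subtype.ext hc) fun i => cret K (p i)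
    simp only [tra] at h5 h6 ⊢
    simp only [h5]
    exact h6
  · exact h3 (fun i => cret K (p i)) (by rw [hp, hr])

end Average

section Transfer

variable {G : Type*} [Group G]

theorem PolyB.of_pow {L : G → ℝ} (hL : IsLength L) {x : G} {m n : ℕ} {F : (Fin n → G) → ℝ}
    (hF : PolyB (x ^ m) L F) : PolyB x L F := by
  refine hF.of_siz_le hL (fun p => p) (c := m + 1) (by (clear * -; positivity)) fun p => ?_
  have h1 : ∑ i, L ((p i)⁻¹ * x ^ m * p i) ≤ m * ∑ i, L ((p i)⁻¹ * x * p i) := by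
    rw [Finset.mul_sum]
    exact Finset.sum_le_sum fun i _ => conj_pow_le hL x (p i) m
  have h2 : 0 ≤ ∑ i, ∑ j, L ((p i)⁻¹ * p j) :=
    Finset.sum_nonneg fun _ _ => Finset.sum_nonneg fun _ _ => hL.nonneg _
  have h3 : 0 ≤ ∑ i, L ((p i)⁻¹ * x * p i) := Finset.sum_nonneg fun _ _ => hL.nonneg _
  have hm : (0 : ℝ) ≤ m := Nat.cast_nonneg m
  unfold siz
  linarith only [mul_nonneg hm h2, h3, h1]

theorem trs_growthP {x : G} {m N : ℕ} {L : G → ℝ} (hL : IsLength L) {ψ : (Fin N → G) → ℝ}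
    (hψ : PolyB x L ψ) : PolyB x L (trs x m ψ) := by
  refine PolyB.sum hL Finset.univ fun a _ => PolyB.smul hL _ ?_
  have h1 : PolyB x L fun q : Fin N → G => ψ fun i => x ^ (a (Tuple.sort a i) : ℕ) * q i :=
    hψ.of_siz_le hL (fun q i => x ^ (a (Tuple.sort a i) : ℕ) * q i)
      (c := N * N * (2 * m + 1) + 1) (by (clear * -; positivity)) fun p =>
        siz_shift hL x (fun i => (a (Tuple.sort a i) : ℕ)) (M := m) (fun i => (a _).2.le) p
  exact h1.comp hL (Tuple.sort a)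

/-- Roots. -/
theorem cycPol_of_pow {x : G} {m : ℕ} (hm : m ≠ 0) (h : CycPol (x ^ m)) : CycPol x := by
  have : NeZero m := ⟨hm⟩
  have hmR : (m : ℝ) ≠ 0 := Nat.cast_ne_zero.2 hm
  obtain ⟨L, hL, n, ψ, hn, h1, h2, h3, h4⟩ := h
  obtain ⟨k, rfl⟩ : ∃ k, n = k + 1 := ⟨n - 1, by omega⟩
  have h3' := (cycAnti_iff (m := 2 * k + 1)).1 h3
  refine ⟨L, hL, k + 1, fun p => ((m : ℝ) ^ (k + 1))⁻¹ * trs x m ψ p, hn, fun h hh p => ?_,
    (trs_growthP hL (PolyB.of_pow hL h2)).smul hL _, ?_, fun p => ?_⟩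
  · exact congrArg _ (trs_inv h1 h hh p)
  · refine (cycAnti_iff (m := 2 * k + 1)).2 fun p => ?_
    have := trs_anti (x := x) (m := m) (N := 2 * k + 1) ⟨k, rfl⟩ h3' p
    exact (congrArg (fun t => ((m : ℝ) ^ (k + 1))⁻¹ * t) this).trans (mul_neg _ _)
  · have h5 := cob_trs (x := x) (m := m) h4 p
    have h6 := sum_eps (k + 1) m
    rw [cob_smul]
    have h7 : (m : ℝ) * DData.cob (trs x m ψ) p = (m : ℝ) ^ (k + 1 + 1) := h5.trans h6
    have h8 : DData.cob (trs x m ψ) p = (m : ℝ) ^ (k + 1) := by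
      apply mul_left_cancel₀ hmR
      rw [h7, pow_succ']
    rw [h8, inv_mul_cancel₀ (pow_ne_zero _ hmR)]

end Transfer

section Local

variable {G : Type*} [Group G]

theorem locPol_of_pow {x : G} {m : ℕ} (hm : m ≠ 0) (h : LocPol (x ^ m)) : LocPol x := by
  intro Q hx
  exact cycPol_of_pow hm (h Q (Subgroup.pow_mem _ hx m))

theorem locPol_of_finiteIndex (K : Subgroup G) [K.FiniteIndex] {x : G} {m : ℕ} (hm0 : m ≠ 0)
    (hm : x ^ m ∈ K) (h : LocPol (⟨x ^ m, hm⟩ : K)) : LocPol x := by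
  classical
  intro Q hx
  set H : Subgroup G := Subgroup.closure (Q : Set G) with hH
  have hHfg : Group.FG H := (Group.fg_iff_subgroup_fg H).2 ⟨Q, rfl⟩
  have hfg : Group.FG (K.subgroupOf H) := Subgroup.fg_of_index_ne_zero (K.subgroupOf H)
  let f : K.subgroupOf H →* K :=
    { toFun := fun g => ⟨((g : H) : G), Subgroup.mem_subgroupOf.1 g.2⟩
      map_one' := rfl
      map_mul' := fun _ _ => rfl }
  have hfr : f.range.FG := (Group.fg_iff_subgroup_fg _).1 (Group.fg_range f)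
  obtain ⟨S, hS⟩ := hfr
  have hxm : (⟨x, hx⟩ : H) ^ m ∈ K.subgroupOf H := by
    rw [Subgroup.mem_subgroupOf]
    exact hm
  set z : K.subgroupOf H := ⟨⟨x, hx⟩ ^ m, hxm⟩ with hz
  have hmem : ∀ g, f g ∈ Subgroup.closure (S : Set K) := fun g => by
    rw [hS]
    exact ⟨g, rfl⟩
  have h1 : CycPol (⟨f z, hmem z⟩ : Subgroup.closure (S : Set K)) := h S (hmem z)
  let g : K.subgroupOf H →* Subgroup.closure (S : Set K) := f.codRestrict _ hmem
  have h2 : CycPol z := CycPol.map g h1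
  exact cycPol_of_pow hm0 (cycPol_of_finiteIndex (K.subgroupOf H) h2)


end Local

end Vale.Agent.P184.PG

end
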