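import Vale.Agent.P184.R4.Rapid
import Vale.Agent.P184.R4.G5

/-!
# The clauses on rapid decay
-/

namespace Vale.Agent.P184.Un

open Vale.Agent.P184.PG

universe u v w

theorem locTame_of_polyLoc {G : Type u} [Group G] {x : G} (h : PolyLoc x) : LocTame x :=
  locTame_iff.2 (S.locTame_iff.2 (locCyc_of_locPol (polyLoc_iff.1 h)))

theorem tameInf_of_polyInf {G : Type u} [Group G] (h : PolyInf G) : TameInf G :=
  fun x hx => locTame_of_polyLoc (h x hx)

theorem polyInf_relHyp {G : Type u} [Group G] {ι : Type v} {H : ι → Subgroup G}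
    (hG : IsRelHyp H) (h : ∀ k, PolyInf (H k)) : PolyInf G := fun x hx =>
  polyLoc_iff.2 (relHyp_locPol (V.relHyperbolic_of (S.isRelHyp_iff.1 (isRelHyp_iff'.1 hG)))
    (fun l y hy => polyLoc_iff.1 (h l y hy)) x hx)

theorem polyLoc_of_poly {G : Type u} [Group G] {x : G} (h : PolyNilpotent x) : PolyLoc x := by
  obtain ⟨L, hL, h1, n, ψ, hn, h2, h3, h4, h5⟩ := h
  exact polyLoc_iff.2 (locPol_of_cyc (cycPol_of_poly hL h1 hn ψ
    (fun h hh p _ => h3 h hh p) (fun p _ => h4 p) (fun p _ => h5 p) h2))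

theorem polyLoc_of_unip {G : Type u} [Group G] {x : G} (h : VirtUnipotent x) : PolyLoc x :=
  polyLoc_iff.2 (locPol_of_cyc (cycPol_of_tame (tamePol_of_uniDetected h)))

theorem polyLoc_of_charged {G : Type u} [Group G] {x : G} (h : LocCharged x) : PolyLoc x :=
  polyLoc_iff.2 fun S hS => cycPol_of_tame (tamePol_of_charged (h S hS))

theorem polyLoc_of {G : Type u} [Group G] {x : G}
    (h : PolyNilpotent x ∨ VirtUnipotent x ∨ LocCharged x) : PolyLoc x := by
  rcases h with h | h | h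
  · exact polyLoc_of_poly h
  · exact polyLoc_of_unip h
  · exact polyLoc_of_charged h

theorem polyLoc_image {G : Type u} [Group G] {K : Type v} [Group K] {x : G} {y : K}
    (hxy : Image x y) (h : PolyLoc y) : PolyLoc x := by
  obtain ⟨D, m, hm, f, hD, rfl⟩ := hxy
  exact polyLoc_iff.2 (locPol_of_finiteIndex D m.succ_ne_zero hm
    (locPol_of_map f (polyLoc_iff.1 h)))

theorem polyLoc_of_lin {G : Type u} [Group G] {K : Type w} [Field K] {x : G}
    (h : LinDetected x K) : PolyLoc x :=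
  polyLoc_of_charged (Vale.Agent.P184.locCharged_of_linDetected h)

theorem polyInf_of_cat {G : Type u} [Group G] {X : Type v} [MetricSpace X] [MulAction G X]
    (h : Cat0Action G X) : PolyInf G := by
  obtain ⟨hne, hiso, hX, hprop, K, hK, hcov⟩ := h
  have h1 := (goodD_of_cat hiso hX hprop K hK hcov).1
  exact fun x hx => polyLoc_iff.2 (locPol_of_cyc (cycPol_of_tame (tamePol_of_charged (h1 x hx))))

theorem polyInf_prod {G : Type u} [Group G] {K : Type v} [Group K] (hG : PolyInf G)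
    (hK : PolyInf K) : PolyInf (G × K) := by
  intro x hx
  by_cases h : IsOfFinOrder x.1
  · by_cases h' : IsOfFinOrder x.2
    · exact absurd (IsOfFinOrder.prod_mk h h') hx
    · exact polyLoc_iff.2 (locPol_of_map (MonoidHom.snd G K) (polyLoc_iff.1 (hK _ h')))
  · exact polyLoc_iff.2 (locPol_of_map (MonoidHom.fst G K) (polyLoc_iff.1 (hG _ h)))

theorem rap_of_polyTame {G : Type u} [Group G] {x : G} (h : PolyTame x) :
    ∃ L₀ : G → ℝ, IsLen L₀ ∧ ∀ L, IsLen L → (∃ c : ℝ, ∀ g, L₀ g ≤ c * L g) →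
      RapEven L x ∧ RapOdd L x :=
  rap_of_cycPol (polyTame_iff.1 h)

end Vale.Agent.P184.Un
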