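import Vale.Agent.P184.R4.FDefs
import Vale.Agent.P184.R4.RMain

/-!
# The clauses of the statement on rapid decay
-/

namespace Vale.Agent.P184.Rd

universe u v w

section conv

variable {G : Type*} [Group G]

theorem l1Bass_iff : L1Bass G ↔ Un.L1Bass G := Iff.rfl

theorem vanishesAt_iff {x : G} : VanishesAt x ↔ Un.VanishesAt x := Iff.rfl

theorem polyLoc_iff {x : G} : PolyLoc x ↔ Un.PolyLoc x := Iff.rfl

theorem polyInf_iff : PolyInf G ↔ Un.PolyInf G := Iff.rfl

theorem rapEven_iff {L : G → ℝ} {x : G} : RapEven L x ↔ Un.RapEven L x := Iff.rfl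

theorem rapOdd_iff {L : G → ℝ} {x : G} : RapOdd L x ↔ Un.RapOdd L x := Iff.rfl

theorem rapBass_iff : RapBass G ↔ Un.RapBass G := Iff.rfl

theorem locTame_iff {x : G} : LocTame x ↔ Un.LocTame x := Iff.rfl

theorem mild_iff {x : G} : Mild x ↔ Un.Mild x := Iff.rfl

theorem mildInf_iff : MildInf G ↔ Un.MildInf G := Iff.rfl

theorem nice_iff : Nice G ↔ Un.Nice G := Iff.rfl

theorem almostAmen_iff : AlmostAmen G ↔ Un.AlmostAmen G := Iff.rfl

theorem poly_iff {x : G} : PolyNilpotent x ↔ Un.PolyNilpotent x := Iff.rfl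

theorem isRelHyp_iff {ι : Type*} {H : ι → Subgroup G} : IsRelHyp H ↔ Un.IsRelHyp H := Iff.rfl

end conv

theorem limBass {G : Type u} [Group G] (h : LimBass.{u, v} G) : L1Bass G := Un.limBass h

theorem l1Bass_of_nice {G : Type u} [Group G] (h : Nice G) : L1Bass G := Un.l1Bass_of_nice h

theorem vanishesAt_of_mild {G : Type u} [Group G] {x : G} (h : Mild x) : VanishesAt x :=
  Un.vanishesAt_of_mild h

theorem nice_of_almostAmen {G : Type u} [Group G] (h : AlmostAmen G) : Nice G :=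
  Un.nice_of_almostAmen h

theorem nice_of_cat {G : Type u} [Group G] {X : Type v} [MetricSpace X] [MulAction G X]
    (h : Cat0Action G X) : Nice G :=
  Un.nice_of_cat h

theorem nice_prod {G : Type u} [Group G] {K : Type v} [Group K] (hG : Nice G) (hK : Nice K) :
    Nice (G × K) :=
  Un.nice_prod hG hK

theorem rapBass {G : Type u} [Group G] (hG : Group.FG G) (h : PolyInf G) : RapBass G :=
  Un.rapBass hG h

theorem rapAt {G : Type u} [Group G] {x : G} (h : PolyTame x) :
    ∃ L₀ : G → ℝ, IsLen L₀ ∧ ∀ L, IsLen L → (∃ c : ℝ, ∀ g, L₀ g ≤ c * L g) →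
      RapEven L x ∧ RapOdd L x :=
  Un.rap_of_polyTame h

theorem relHyp {G : Type u} [Group G] {ι : Type v} {H : ι → Subgroup G} (hG : IsRelHyp H) :
    ((∀ k, PolyInf (H k)) → PolyInf G) ∧ ((∀ k, MildInf (H k)) → MildInf G) ∧
      ((∀ k, Nice (H k)) → Nice G) :=
  ⟨Un.polyInf_relHyp hG, (Un.relHyp hG).1, (Un.relHyp hG).2.1⟩

theorem polyLoc_of {G : Type u} [Group G] {x : G}
    (h : PolyNilpotent x ∨ VirtUnipotent x ∨ LocCharged x) : PolyLoc x :=
  Un.polyLoc_of h

theorem mild_of_polyLoc {G : Type u} [Group G] {x : G} (h : PolyLoc x) : Mild x :=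
  Or.inl (Un.locTame_of_polyLoc h)

theorem polyLoc_of_lin {G : Type u} [Group G] {x : G} {K : Type v} [Field K]
    (h : LinDetected x K) : PolyLoc x :=
  Un.polyLoc_of_lin h

theorem cat {G : Type u} [Group G] {X : Type v} [MetricSpace X] [MulAction G X]
    (h : Cat0Action G X) : Nice G ∧ PolyInf G :=
  ⟨Un.nice_of_cat h, Un.polyInf_of_cat h⟩

theorem polyInf_prod {G : Type u} [Group G] {K : Type v} [Group K] (hG : PolyInf G)
    (hK : PolyInf K) : PolyInf (G × K) :=
  Un.polyInf_prod hG hK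

theorem image {G : Type u} [Group G] {K : Type v} [Group K] {x : G} {y : K} (h : Image x y) :
    (PolyLoc y → PolyLoc x) ∧ (Mild y → Mild x) :=
  ⟨Un.polyLoc_image h, (Un.image h).2⟩

end Vale.Agent.P184.Rd
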