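import Vale.Agent.P184.SMain

/-!
# Polynomial growth of cochains
-/

noncomputable section

namespace Vale.Agent.P184.PG


section Growth

variable {G : Type*} [Group G] (x : G) (L : G → ℝ)

/-- polynomial growth of a function on tuples -/
def PolyB {n : ℕ} (F : (Fin n → G) → ℝ) : Prop :=
  ∃ (C : ℝ) (d : ℕ), ∀ p, |F p| ≤ C * (1 + |siz x L p|) ^ d

variable {x L}

theorem one_le_abs {n : ℕ} (p : Fin n → G) : 1 ≤ 1 + |siz x L p| := by
  have := abs_nonneg (siz x L p)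
  linarith

theorem PolyB.pos {n : ℕ} {F : (Fin n → G) → ℝ} (hF : PolyB x L F) :
    ∃ (C : ℝ) (d : ℕ), 0 ≤ C ∧ ∀ p, |F p| ≤ C * (1 + |siz x L p|) ^ d := by
  obtain ⟨C, d, hC⟩ := hF
  refine ⟨|C|, d, abs_nonneg C, fun p => (hC p).trans ?_⟩
  exact mul_le_mul_of_nonneg_right (le_abs_self C) (by positivity)

theorem PolyB.mul {n : ℕ} {F F' : (Fin n → G) → ℝ} (hF : PolyB x L F) (hF' : PolyB x L F') :
    PolyB x L fun p => F p * F' p := by
  obtain ⟨C, d, hC0, hC⟩ := hF.pos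
  obtain ⟨C', d', hC0', hC'⟩ := hF'.pos
  refine ⟨C * C', d + d', fun p => ?_⟩
  rw [abs_mul, pow_add]
  refine (mul_le_mul (hC p) (hC' p) (abs_nonneg _) (by positivity)).trans (le_of_eq ?_)
  ring

theorem PolyB.add {n : ℕ} {F F' : (Fin n → G) → ℝ} (hF : PolyB x L F) (hF' : PolyB x L F') :
    PolyB x L fun p => F p + F' p := by
  obtain ⟨C, d, hC0, hC⟩ := hF.pos
  obtain ⟨C', d', hC0', hC'⟩ := hF'.pos
  refine ⟨C + C', max d d', fun p => (abs_add_le _ _).trans ?_⟩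
  rw [add_mul]
  refine add_le_add ((hC p).trans ?_) ((hC' p).trans ?_)
  · exact mul_le_mul_of_nonneg_left (pow_le_pow_right₀ (one_le_abs p) (le_max_left _ _)) hC0
  · exact mul_le_mul_of_nonneg_left (pow_le_pow_right₀ (one_le_abs p) (le_max_right _ _)) hC0'

theorem PolyB.const (_ : IsLength L) {n : ℕ} (c : ℝ) : PolyB x L fun _ : Fin n → G => c :=
  ⟨|c|, 0, fun p => by rw [pow_zero, mul_one]⟩

theorem PolyB.smul (hL : IsLength L) {n : ℕ} (c : ℝ) {F : (Fin n → G) → ℝ} (hF : PolyB x L F) :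
    PolyB x L fun p => c * F p := (PolyB.const hL c).mul hF

/-- composition with maps of linear size -/
theorem PolyB.of_lin {G' : Type*} [Group G'] {y : G'} {l : G' → ℝ} {n m : ℕ}
    {F : (Fin n → G') → ℝ} (hF : PolyB y l F) (f : (Fin m → G) → Fin n → G') {c : ℝ}
    (hc : 0 ≤ c) (hf : ∀ p, |siz y l (f p)| ≤ c * (1 + |siz x L p|)) :
    PolyB x L fun p => F (f p) := by
  obtain ⟨C, d, hC0, hC⟩ := hF.pos
  refine ⟨C * (1 + c) ^ d, d, fun p => (hC _).trans ?_⟩
  rw [mul_assoc, ← mul_pow]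
  refine mul_le_mul_of_nonneg_left (pow_le_pow_left₀ (by positivity) ?_ d) hC0
  have h1 := hf p
  have h2 := abs_nonneg (siz x L p)
  nlinarith

/-- composition with maps of polynomial size -/
theorem PolyB.of_pol {G' : Type*} [Group G'] {y : G'} {l : G' → ℝ} {n m : ℕ}
    {F : (Fin n → G') → ℝ} (hF : PolyB y l F) (f : (Fin m → G) → Fin n → G') {c : ℝ} {D : ℕ}
    (hc : 0 ≤ c) (hf : ∀ p, |siz y l (f p)| ≤ c * (1 + |siz x L p|) ^ D) :
    PolyB x L fun p => F (f p) := by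
  obtain ⟨C, d, hC0, hC⟩ := hF.pos
  refine ⟨C * (1 + c) ^ d, D * d, fun p => (hC _).trans ?_⟩
  rw [mul_assoc, pow_mul, ← mul_pow]
  refine mul_le_mul_of_nonneg_left (pow_le_pow_left₀ (by positivity) ?_ d) hC0
  have h1 := hf p
  have h2 : 1 ≤ (1 + |siz x L p|) ^ D := one_le_pow₀ (one_le_abs p)
  nlinarith

theorem PolyB.comp (hL : IsLength L) {n m : ℕ} {F : (Fin n → G) → ℝ} (hF : PolyB x L F)
    (f : Fin n → Fin m) : PolyB x L fun p : Fin m → G => F fun i => p (f i) := by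
  refine hF.of_lin (fun p i => p (f i)) (c := n * n + n) (by positivity) fun p => ?_
  rw [abs_of_nonneg (siz_nonneg hL _), abs_of_nonneg (siz_nonneg hL _)]
  refine (siz_comp (x := x) hL f p).trans ?_
  exact mul_le_mul_of_nonneg_left (by linarith) (by positivity)

theorem PolyB.sum (hL : IsLength L) {n : ℕ} {κ : Type*} (s : Finset κ)
    {F : κ → (Fin n → G) → ℝ} (hF : ∀ k ∈ s, PolyB x L (F k)) :
    PolyB x L fun p => ∑ k ∈ s, F k p := by
  classical
  induction s using Finset.induction_on with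
  | empty => simpa using PolyB.const hL 0
  | insert k s hk ih =>
    have h1 := (hF k (Finset.mem_insert_self k s)).add
      (ih fun j hj => hF j (Finset.mem_insert_of_mem hj))
    simpa only [Finset.sum_insert hk] using h1

theorem PolyB.tra {n : ℕ} {F : (Fin n → G) → ℝ} (hF : PolyB x L F) {h : G}
    (hh : Commute h x) : PolyB x L fun p => F (tra h p) := by
  obtain ⟨C, d, hC⟩ := hF
  refine ⟨C, d, fun p => ?_⟩
  have := hC (Vale.Agent.P184.tra h p)
  rwa [siz_tra hh] at this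

theorem PolyB.of_poly (hL : IsLength L) {n : ℕ} {F : (Fin n → G) → ℝ} (c : ℝ) (d : ℕ)
    (hF : ∀ p, |F p| ≤ c * (1 + siz x L p) ^ d) : PolyB x L F :=
  ⟨c, d, fun p => by rw [abs_of_nonneg (siz_nonneg hL p)]; exact hF p⟩

theorem PolyB.out (hL : IsLength L) {n : ℕ} {F : (Fin n → G) → ℝ} (hF : PolyB x L F) :
    ∃ (C : ℝ) (d : ℕ), 0 ≤ C ∧ ∀ p, |F p| ≤ C * (1 + siz x L p) ^ d := by
  obtain ⟨C, d, hC0, hC⟩ := hF.pos
  refine ⟨C, d, hC0, fun p => ?_⟩
  have := hC p
  rwa [abs_of_nonneg (siz_nonneg hL p)] at this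

theorem PolyB.of_linear {n : ℕ} {F : (Fin n → G) → ℝ} (c : ℝ) (hc : 0 ≤ c)
    (hF : ∀ p, |F p| ≤ c * siz x L p) : PolyB x L F := by
  refine ⟨c, 1, fun p => (hF p).trans (mul_le_mul_of_nonneg_left ?_ hc)⟩
  rw [pow_one]
  have := le_abs_self (siz x L p)
  linarith

theorem PolyB.of_siz_le {y : G} {n m : ℕ} {F : (Fin n → G) → ℝ}
    (hL : IsLength L) (hF : PolyB y L F) (f : (Fin m → G) → Fin n → G) {c : ℝ} (hc : 0 < c)
    (hf : ∀ p, siz y L (f p) ≤ c * siz x L p) : PolyB x L fun p => F (f p) := by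
  refine hF.of_lin f hc.le fun p => ?_
  rw [abs_of_nonneg (siz_nonneg hL _), abs_of_nonneg (siz_nonneg hL _)]
  exact (hf p).trans (mul_le_mul_of_nonneg_left (by linarith) hc.le)

end Growth

theorem PolyB.pull {G K : Type*} [Group G] [Group K] {x : G} {y : K} {L : G → ℝ} {l : K → ℝ}
    (hL : IsLength L) (hl : IsLength l)
    (r : G → K) (hr : ∀ p, r (x * p) = y * r p) {c d : ℝ} (hc : 0 < c)
    (hlip : ∀ p q, l ((r p)⁻¹ * r q) ≤ c * L (p⁻¹ * q) + d) {n : ℕ} {F : (Fin n → K) → ℝ}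
    (hF : PolyB y l F) : PolyB x L fun p : Fin n → G => F fun i => r (p i) := by
  refine hF.of_lin (fun p i => r (p i)) (c := c + (n * n + n) * |d|) (by positivity) fun p => ?_
  rw [abs_of_nonneg (siz_nonneg hL _), abs_of_nonneg (siz_nonneg hl _)]
  have h0 := siz_nonneg (x := x) hL p
  have h1 : siz y l (fun i => r (p i)) ≤ c * siz x L p + (n * n + n) * d := by
    unfold siz
    have e1 : ∀ i j, l ((r (p i))⁻¹ * r (p j)) ≤ c * L ((p i)⁻¹ * p j) + d :=
      fun i j => hlip _ _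
    have e2 : ∀ i, l ((r (p i))⁻¹ * y * r (p i)) ≤ c * L ((p i)⁻¹ * x * p i) + d := by
      intro i
      have := hlip (p i) (x * p i)
      rw [hr, ← mul_assoc, ← mul_assoc] at this
      exact this
    have e3 : ∑ i, ∑ j, l ((r (p i))⁻¹ * r (p j)) ≤
        c * (∑ i, ∑ j, L ((p i)⁻¹ * p j)) + (n * n) * d := by
      calc ∑ i, ∑ j, l ((r (p i))⁻¹ * r (p j)) ≤ ∑ i : Fin n, ∑ j : Fin n,
            (c * L ((p i)⁻¹ * p j) + d) :=
            Finset.sum_le_sum fun i _ => Finset.sum_le_sum fun j _ => e1 i j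
        _ = _ := by
          simp only [Finset.sum_add_distrib, ← Finset.mul_sum, Finset.sum_const,
            Finset.card_univ, Fintype.card_fin, nsmul_eq_mul]
          ring
    have e4 : ∑ i, l ((r (p i))⁻¹ * y * r (p i)) ≤
        c * (∑ i, L ((p i)⁻¹ * x * p i)) + n * d := by
      calc ∑ i, l ((r (p i))⁻¹ * y * r (p i)) ≤ ∑ i : Fin n, (c * L ((p i)⁻¹ * x * p i) + d) :=
            Finset.sum_le_sum fun i _ => e2 i
        _ = _ := by
          simp only [Finset.sum_add_distrib, ← Finset.mul_sum, Finset.sum_const, Finset.card_univ, Fintype.card_fin, nsmul_eq_mul]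
    linarith only [e4, e3]
  have h2 : (n * n + n : ℝ) * d ≤ (n * n + n) * |d| :=
    mul_le_mul_of_nonneg_left (le_abs_self d) (by positivity)
  have h3 : 0 ≤ (n * n + n : ℝ) * |d| * siz x L p := by positivity
  have h4 := hc.le
  nlinarith

end Vale.Agent.P184.PG

end
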