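import Vale.Agent.P184.R4.G1

/-!
# Nilpotence of the Euler class implies nilpotence of the periodicity operator, with polynomial
growth
-/

noncomputable section

namespace Vale.Agent.P184.PG


open Equiv (Perm)
open DData (cob)

/-- Nilpotency of the Euler class with polynomial growth. -/
def EulerPol {G : Type*} [Group G] (L : G → ℝ) (x : G) : Prop :=
  ∃ (α : G → G → ℝ) (n : ℕ) (β : (Fin (2 * n) → G) → ℝ), 0 < n ∧
    (∀ h p q, Commute h x → α (h * p) (h * q) = α p q) ∧
    (∀ p q, α p (x * q) = α p q + 1) ∧ PolyB x L (fun p : Fin 2 → G => α (p 0) (p 1)) ∧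
    CInv x β ∧ XInv x β ∧ PolyB x L β ∧
    ∀ p : Fin (2 * n + 1) → G, ∑ σ : Perm (Fin (2 * n + 1)), ((Equiv.Perm.sign σ : ℤ) : ℝ) *
      (cupPow α n (fun i => p (σ i)) - DData.cob β (fun i => p (σ i))) = 0

/-- a length function with nilpotent Euler class -/
def TamePol {G : Type*} [Group G] (x : G) : Prop := ∃ L : G → ℝ, IsLength L ∧ EulerPol L x

/-- For some length function the `n`-th power of the periodicity operator annihilates the trace
at `x`, with polynomial growth. -/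
def CycPol {G : Type*} [Group G] (x : G) : Prop :=
  ∃ L : G → ℝ, IsLength L ∧ ∃ (n : ℕ) (ψ : (Fin (2 * n) → G) → ℝ), 0 < n ∧
    CInv x ψ ∧ PolyB x L ψ ∧ CycAnti x ψ ∧ ∀ p, DData.cob ψ p = 1

/-- in all finitely generated subgroups containing it -/
def LocPol {G : Type*} [Group G] (x : G) : Prop :=
  ∀ (S : Finset G) (h : x ∈ Subgroup.closure (S : Set G)),
    CycPol (⟨x, h⟩ : Subgroup.closure (S : Set G))

section

variable {G : Type*} [Group G] {x : G} {L : G → ℝ}

/-- invariant cochains of subexponential growth -/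
structure Adm (x : G) (L : G → ℝ) {n : ℕ} (F : (Fin n → G) → ℝ) : Prop where
  inv : CInv x F
  sub : PolyB x L F

theorem Adm.add {n : ℕ} {F F' : (Fin n → G) → ℝ} (hF : Adm x L F) (hF' : Adm x L F') :
    Adm x L fun p => F p + F' p := ⟨hF.inv.add hF'.inv, hF.sub.add hF'.sub⟩

theorem Adm.mul {n : ℕ} {F F' : (Fin n → G) → ℝ} (hF : Adm x L F) (hF' : Adm x L F') :
    Adm x L fun p => F p * F' p := ⟨hF.inv.mul hF'.inv, hF.sub.mul hF'.sub⟩

theorem Adm.const (hL : IsLength L) {n : ℕ} (c : ℝ) : Adm x L fun _ : Fin n → G => c :=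
  ⟨CInv.const c, PolyB.const hL c⟩

theorem Adm.smul (hL : IsLength L) {n : ℕ} (c : ℝ) {F : (Fin n → G) → ℝ} (hF : Adm x L F) :
    Adm x L fun p => c * F p := (Adm.const hL c).mul hF

theorem Adm.comp (hL : IsLength L) {n m : ℕ} {F : (Fin n → G) → ℝ} (hF : Adm x L F)
    (f : Fin n → Fin m) : Adm x L fun p : Fin m → G => F fun i => p (f i) :=
  ⟨hF.inv.comp f, hF.sub.comp hL f⟩

theorem Adm.sum (hL : IsLength L) {n : ℕ} {ι : Type*} (S : Finset ι) {F : ι → (Fin n → G) → ℝ}
    (hF : ∀ i, Adm x L (F i)) : Adm x L fun p => ∑ i ∈ S, F i p := by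
  classical
  induction S using Finset.induction_on with
  | empty => simpa using (Adm.const (x := x) hL (n := n) 0)
  | insert a S ha ih =>
    simp only [Finset.sum_insert ha]
    exact (hF a).add ih

theorem Adm.cob (hL : IsLength L) {n : ℕ} {F : (Fin n → G) → ℝ} (hF : Adm x L F) :
    Adm x L (cob F) :=
  Adm.sum hL Finset.univ (F := fun (j : Fin (n + 1)) (p : Fin (n + 1) → G) =>
    (-1) ^ (j : ℕ) * F fun i => p (j.succAbove i)) fun j => (hF.comp hL j.succAbove).smul hL _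

theorem Adm.wcob (hL : IsLength L) {n : ℕ} {F : (Fin n → G) → ℝ} (hF : Adm x L F) :
    Adm x L (wcob F) :=
  Adm.sum hL Finset.univ (F := fun (j : Fin (n + 1)) (p : Fin (n + 1) → G) =>
    (-1) ^ (j : ℕ) * ((j : ℕ) : ℝ) * F fun i => p (j.succAbove i))
    fun j => (hF.comp hL j.succAbove).smul hL _

theorem Adm.alt (hL : IsLength L) {n : ℕ} {F : (Fin n → G) → ℝ} (hF : Adm x L F) :
    Adm x L (AltF F) :=
  Adm.sum hL Finset.univ (F := fun (σ : Perm (Fin n)) (p : Fin n → G) =>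
    ((Equiv.Perm.sign σ : ℤ) : ℝ) * F fun i => p (σ i)) fun σ => (hF.comp hL σ).smul hL _

theorem XInv.alt {n : ℕ} {F : (Fin n → G) → ℝ} (hF : XInv x F) : XInv x (AltF F) := by
  intro k p
  unfold AltF
  refine Finset.sum_congr rfl fun σ _ => ?_
  rw [hF (fun i => k (σ i)) fun i => p (σ i)]

theorem AltF_shf {m : ℕ} {F : (Fin (m + 1) → G) → ℝ} (hF : XInv x F) (p : Fin (m + 1) → G) :
    AltF F (shf x p) = (-1) ^ m * AltF F p := by
  have h1 : AltF F (shf x p) = AltF F fun i => p (finRotate (m + 1) i) := by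
    rw [shf_eq]
    exact hF.alt (fun i => if i = Fin.last m then 1 else 0) fun i => p (finRotate (m + 1) i)
  rw [h1, AltF_perm, sign_finRotate, Nat.add_sub_cancel]
  push_cast
  rfl

theorem cob_alt_eq_zero {n : ℕ} {F : (Fin n → G) → ℝ} (hF : ∀ p, cob F p = 0)
    (p : Fin (n + 1) → G) : cob (AltF F) p = 0 := by
  have h1 := AltF_cob F p
  have h2 : AltF (cob F) p = 0 := by
    unfold AltF
    simp only [hF, mul_zero, Finset.sum_const_zero]
  rw [h2] at h1
  have h3 : ((n : ℝ) + 1) ≠ 0 := by (clear * -; positivity)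
  rcases mul_eq_zero.1 h1.symm with h | h
  · exact absurd h h3
  · exact h

/-- `F` is the coboundary of an admissible cyclic cochain. -/
def Ex (x : G) (L : G → ℝ) (n : ℕ) (F : (Fin (2 * n + 1) → G) → ℝ) : Prop :=
  ∃ ψ : (Fin (2 * n) → G) → ℝ, Adm x L ψ ∧ CycAnti x ψ ∧ ∀ p, cob ψ p = F p

theorem Ex.add {n : ℕ} {F F' : (Fin (2 * n + 1) → G) → ℝ} (h : Ex x L n F) (h' : Ex x L n F') :
    Ex x L n fun p => F p + F' p := by
  obtain ⟨ψ, h1, h2, h3⟩ := h
  obtain ⟨ψ', h1', h2', h3'⟩ := h'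
  refine ⟨fun p => ψ p + ψ' p, h1.add h1', fun p hp => ?_, fun p => ?_⟩
  · show ψ _ + ψ' _ = - (ψ _ + ψ' _)
    rw [h2 p hp, h2' p hp]
    ring
  · rw [cob_add, h3, h3']

theorem Ex.smul (hL : IsLength L) {n : ℕ} (c : ℝ) {F : (Fin (2 * n + 1) → G) → ℝ}
    (h : Ex x L n F) : Ex x L n fun p => c * F p := by
  obtain ⟨ψ, h1, h2, h3⟩ := h
  refine ⟨fun p => c * ψ p, h1.smul hL c, fun p hp => ?_, fun p => ?_⟩
  · show c * ψ _ = - (c * ψ _)
    rw [h2 p hp]
    ring
  · rw [cob_smul, h3]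

theorem Ex.congr {n : ℕ} {F F' : (Fin (2 * n + 1) → G) → ℝ} (h : Ex x L n F)
    (hF : ∀ p, F p = F' p) : Ex x L n F' := by
  obtain ⟨ψ, h1, h2, h3⟩ := h
  exact ⟨ψ, h1, h2, fun p => (h3 p).trans (hF p)⟩

/-- The periodicity operator. -/
theorem Ex.step (hL : IsLength L) {n : ℕ} {F : (Fin (2 * (n + 1) + 1) → G) → ℝ}
    (h : Ex x L (n + 1) F) : Ex x L (n + 2) (cob (wcob F)) := by
  obtain ⟨ψ, h1, h2, h3⟩ := h
  have hm : Odd (2 * n + 1) := ⟨n, rfl⟩
  have h4 := shf_per x hm ψ (cycAnti_iff.1 h2)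
  have hψ : cob ψ = F := funext h3
  set c : ℝ := (((2 * n + 1 : ℕ) : ℝ) + 1) with hc
  have hc0 : c ≠ 0 := by (clear * -; positivity)
  refine ⟨fun p => c⁻¹ * ((((2 * n + 1 : ℕ) : ℝ) + 3) * cob (wcob ψ) p + c * wcob (cob ψ) p),
    ?_, ?_, ?_⟩
  · exact ((((h1.wcob hL).cob hL).smul hL _).add (((h1.cob hL).wcob hL).smul hL _)).smul hL _
  · refine (cycAnti_iff (m := 2 * n + 3)).2 fun p => ?_
    have h5 := h4 p
    show c⁻¹ * _ = - (c⁻¹ * _)
    rw [← mul_neg, ← h5]
  · intro p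
    rw [cob_smul, cob_add, cob_smul, cob_smul, cob_cob, hψ, mul_zero, zero_add, ← mul_assoc,
      inv_mul_cancel₀ hc0, one_mul]

/-- Comparison of the periodicity operator with the product with the curvature. -/
theorem ex_conn (hL : IsLength L) (α : G → G → ℝ)
    (hα1 : ∀ h p q, Commute h x → α (h * p) (h * q) = α p q)
    (hα2 : ∀ p q, α p (x * q) = α p q + 1)
    (hα3 : PolyB x L fun p : Fin 2 → G => α (p 0) (p 1))
    {n : ℕ} {K : (Fin (2 * n + 1) → G) → ℝ} (hA : Adm x L K) (hX : XInv x K)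
    (hK : ∀ p, cob K p = 0) :
    Ex x L (n + 1) fun p => ((2 * n : ℕ) + 1 : ℝ) / ((2 * n : ℕ) + 3) * AltF (cupw α K) p +
      cob (wcob (AltF K)) p := by
  have hαA : Adm x L fun p : Fin 2 → G => α (p 0) (p 1) :=
    ⟨fun h hh p => hα1 h (p 0) (p 1) hh, hα3⟩
  set γ : (Fin (2 * n + 2) → G) → ℝ := fun p => α (p 0) (p 1) * K fun i => p i.succ with hγ
  have hγA : Adm x L γ := by
    have h1 := hαA.comp hL (m := 2 * n + 2) ![0, 1]
    simp at h1
    exact h1.mul (hA.comp hL Fin.succ)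
  refine ⟨fun p => (((2 * n : ℕ) : ℝ) + 1) * AltF γ p + wcob (AltF K) p,
    ((hγA.alt hL).smul hL _).add ((hA.alt hL).wcob hL), ?_, fun p => ?_⟩
  · refine (cycAnti_iff (m := 2 * n + 1)).2 fun p => ?_
    have h1 := AltF_conn_shf x α hα1 hα2 (even_two_mul n) hX hK p
    have h2 := wcob_shf x (AltF K) p
    have h3 : (fun q => AltF K (shf x q)) = AltF K := by
      funext q
      rw [AltF_shf hX, (even_two_mul n).neg_one_pow, one_mul]
    have h4 : AltF K (shf x fun i => p i.succ) = AltF K fun i => p i.succ := by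
      rw [AltF_shf hX, (even_two_mul n).neg_one_pow, one_mul]
    rw [h3, h4, cob_alt_eq_zero hK, (even_two_mul n).add_one.neg_one_pow] at h2
    show (((2 * n : ℕ) : ℝ) + 1) * AltF γ (shf x p) + wcob (AltF K) (shf x p) =
      - ((((2 * n : ℕ) : ℝ) + 1) * AltF γ p + wcob (AltF K) p)
    rw [h1, h2]
    ring
  · rw [cob_add, cob_smul]
    congr 1
    have h1 := AltF_cob γ p
    have h2 : cob γ = cupw α K := funext fun q => cupw_eq_cob α hK q
    rw [h2] at h1
    have h3 : (((2 * n : ℕ) : ℝ) + 3) ≠ 0 := by (clear * -; (clear * -; positivity))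
    have h4 : (((2 * n + 2 : ℕ) : ℝ) + 1) = ((2 * n : ℕ) : ℝ) + 3 := by push_cast; ring
    rw [h4] at h1
    rw [h1]
    (clear * - h3; field_simp)

theorem cupPow_props (hL : IsLength L) (α : G → G → ℝ)
    (hα1 : ∀ h p q, Commute h x → α (h * p) (h * q) = α p q)
    (hα2 : ∀ p q, α p (x * q) = α p q + 1)
    (hα3 : PolyB x L fun p : Fin 2 → G => α (p 0) (p 1)) (n : ℕ) :
    Adm x L (cupPow α n) ∧ XInv x (cupPow α n) ∧ ∀ p, cob (cupPow α n) p = 0 := by
  have hαA : Adm x L fun p : Fin 2 → G => α (p 0) (p 1) :=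
    ⟨fun h hh p => hα1 h (p 0) (p 1) hh, hα3⟩
  have hαz : ∀ (k l : ℤ) (p q : G), α (x ^ k * p) (x ^ l * q) = α p q + (l - k) := by
    intro k l p q
    have h1 : ∀ (n : ℕ) (p q : G), α p (x ^ n * q) = α p q + n := by
      intro n
      induction n with
      | zero => intro p q; simp
      | succ n ih =>
        intro p q
        rw [pow_succ', mul_assoc, hα2, ih]
        push_cast; ring
    have h2 : ∀ (n : ℤ) (p q : G), α p (x ^ n * q) = α p q + n := by
      intro n p q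
      obtain ⟨m, rfl | rfl⟩ := n.eq_nat_or_neg
      · rw [zpow_natCast, h1]; simp
      · have h3 := h1 m p (x ^ (-(m : ℤ)) * q)
        rw [← zpow_natCast, ← mul_assoc, ← zpow_add, add_neg_cancel, zpow_zero, one_mul] at h3
        push_cast
        linarith only [h3]
    have h4 : x ^ l * q = x ^ k * (x ^ (l - k) * q) := by
      rw [← mul_assoc, ← zpow_add]
      congr 2
      ring
    rw [h4, hα1 _ _ _ ((Commute.refl x).zpow_left k), h2]
    push_cast
    ring
  induction n with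
  | zero =>
    have h0 : cupPow α 0 = fun _ : Fin (2 * 0 + 1) → G => (1 : ℝ) := by
      funext p
      simp [cupPow]
    rw [h0]
    refine ⟨Adm.const hL 1, fun _ _ => rfl, fun p => ?_⟩
    unfold DData.cob
    rw [Fin.sum_univ_succ, Fin.sum_univ_succ]
    simp
  | succ n ih =>
    obtain ⟨h1, h2, h3⟩ := ih
    have h0 : cupPow α (n + 1) = cupw α (cupPow α n) := by
      funext p
      exact cupPow_succ α n p
    rw [h0]
    refine ⟨?_, ?_, ?_⟩
    · have g1 := hαA.comp hL (m := 2 * n + 3) ![0, 1]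
      have g2 := hαA.comp hL (m := 2 * n + 3) ![1, 2]
      have g3 := (hαA.comp hL (m := 2 * n + 3) ![0, 2]).smul hL (-1)
      simp at g1 g2 g3
      have g4 : Adm x L fun p : Fin (2 * n + 3) → G => dee α (p 0) (p 1) (p 2) := by
        have g5 := (g1.add g2).add g3
        have g6 : (fun p : Fin (2 * n + 3) → G => dee α (p 0) (p 1) (p 2)) =
            fun p => α (p 0) (p 1) + α (p 1) (p 2) + -α (p 0) (p 2) := by
          funext p
          unfold dee
          ring
        rw [g6]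
        exact g5
      exact g4.mul (h1.comp hL fun i => i.succ.succ)
    · intro k p
      unfold cupw
      have g1 := h2 (fun i => k i.succ.succ) (fun i => p i.succ.succ)
      rw [g1]
      congr 1
      unfold dee
      rw [hαz, hαz, hαz]
      ring
    · exact cupw_closed α h3

theorem AltF_cupPow_zero (α : G → G → ℝ) :
    AltF (cupPow α 0) = fun _ : Fin (2 * 0 + 1) → G => (1 : ℝ) := by
  funext p
  unfold AltF
  have : (Finset.univ : Finset (Perm (Fin (2 * 0 + 1)))) = {1} := by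
    apply Finset.eq_singleton_iff_unique_mem.2
    refine ⟨Finset.mem_univ _, fun σ _ => ?_⟩
    ext i
    have h1 := (σ i).isLt
    have h2 := ((1 : Perm (Fin (2 * 0 + 1))) i).isLt
    omega
  rw [this, Finset.sum_singleton]
  simp only [Nat.mul_zero, Nat.reduceAdd, Perm.sign_one, Units.val_one, Int.cast_one, cupPow, Finset.univ_eq_empty, Perm.coe_one, id_eq, Finset.prod_empty, mul_one]

/-- The iterated periodicity operator applied to the constant function. -/
theorem ex_cupPow (hL : IsLength L) (α : G → G → ℝ)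
    (hα1 : ∀ h p q, Commute h x → α (h * p) (h * q) = α p q)
    (hα2 : ∀ p q, α p (x * q) = α p q + 1)
    (hα3 : PolyB x L fun p : Fin 2 → G => α (p 0) (p 1)) (n : ℕ) :
    ∃ a b : ℝ, a ≠ 0 ∧ Ex x L (n + 1) fun p => a + b * AltF (cupPow α (n + 1)) p := by
  induction n with
  | zero =>
    obtain ⟨h1, h2, h3⟩ := cupPow_props hL α hα1 hα2 hα3 0
    have h4 := ex_conn hL α hα1 hα2 hα3 h1 h2 h3
    have h0 : cupPow α (0 + 1) = cupw α (cupPow α 0) := by
      funext p
      exact cupPow_succ α 0 p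
    refine ⟨-1, 1 / 3, by norm_num, h4.congr fun p => ?_⟩
    rw [h0, AltF_cupPow_zero]
    have h5 : wcob (fun _ : Fin (2 * 0 + 1) → G => (1 : ℝ)) = fun _ => -1 := by
      funext q
      rw [wcob_const]
      norm_num
    rw [h5, cob_const (by norm_num)]
    push_cast
    ring
  | succ n ih =>
    obtain ⟨a, b, ha, h⟩ := ih
    obtain ⟨h1, h2, h3⟩ := cupPow_props hL α hα1 hα2 hα3 (n + 1)
    have h4 := (ex_conn hL α hα1 hα2 hα3 h1 h2 h3).smul hL (-b)
    have h5 := h.step hL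
    have h0 : cupPow α (n + 1 + 1) = cupw α (cupPow α (n + 1)) := by
      funext p
      exact cupPow_succ α (n + 1) p
    refine ⟨-((n : ℝ) + 2) * a, -b * (((2 * (n + 1) : ℕ) + 1 : ℝ) / ((2 * (n + 1) : ℕ) + 3)),
      mul_ne_zero (by have : (0 : ℝ) < (n : ℝ) + 2 := by (clear * -; positivity)
                      linarith only []) ha, (h5.add h4).congr fun p => ?_⟩
    rw [h0]
    have h6 : wcob (fun p : Fin (2 * (n + 1) + 1) → G => a + b * AltF (cupPow α (n + 1)) p) =
        fun q => (-((n : ℝ) + 2) * a) + b * wcob (AltF (cupPow α (n + 1))) q := by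
      funext q
      rw [wcob_add, wcob_smul, wcob_const]
      push_cast
      ring
    have h7 : cob (fun q : Fin (2 * (n + 1) + 1 + 1) → G => (-((n : ℝ) + 2) * a) +
        b * wcob (AltF (cupPow α (n + 1))) q) p = (-((n : ℝ) + 2) * a) +
        b * cob (wcob (AltF (cupPow α (n + 1)))) p := by
      have h8 := cob_add (fun _ : Fin (2 * (n + 1) + 1 + 1) → G => (-((n : ℝ) + 2) * a))
        (fun q => b * wcob (AltF (cupPow α (n + 1))) q) p
      rw [h8, cob_const ⟨n + 2, by ring⟩, cob_smul b]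
    rw [h6, h7]
    ring

/-- Nilpotence of the Euler class implies nilpotence of the periodicity operator. -/
theorem cycPol_of_tame (h : TamePol x) : CycPol x := by
  obtain ⟨L, hL, α, n, β, hn, hα1, hα2, hα3, hβ1, hβ2, hβ3, hβ⟩ := h
  obtain ⟨k, rfl⟩ : ∃ k, n = k + 1 := ⟨n - 1, by omega⟩
  obtain ⟨a, b, ha, hE⟩ := ex_cupPow hL α hα1 hα2 hα3 k
  have hβA : Adm x L β := ⟨hβ1, hβ3⟩
  have h1 : ∀ p, AltF (cupPow α (k + 1)) p = AltF (cob β) p := by
    intro p
    have h2 := hβ p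
    unfold AltF
    rw [← sub_eq_zero, ← Finset.sum_sub_distrib, ← h2]
    exact Finset.sum_congr rfl fun σ _ => by ring
  have h2 : Ex x L (k + 1) (AltF (cupPow α (k + 1))) := by
    refine ⟨fun p => (((2 * (k + 1) : ℕ) : ℝ) + 1) * AltF β p, (hβA.alt hL).smul hL _, ?_,
      fun p => ?_⟩
    · refine (cycAnti_iff (m := 2 * k + 1)).2 fun p => ?_
      have h3 : AltF β (shf x p) = (-1) ^ (2 * k + 1) * AltF β p := AltF_shf hβ2 p
      rw [pow_succ, (even_two_mul k).neg_one_pow] at h3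
      show (((2 * (k + 1) : ℕ) : ℝ) + 1) * AltF β (shf x p) =
        - ((((2 * (k + 1) : ℕ) : ℝ) + 1) * AltF β p)
      rw [h3]
      ring
    · rw [cob_smul, h1, AltF_cob]
  obtain ⟨ψ, h3, h4, h5⟩ := ((hE.add (h2.smul hL (-b))).smul hL a⁻¹)
  refine ⟨L, hL, k + 1, ψ, k.succ_pos, h3.inv, h3.sub, h4, fun p => ?_⟩
  rw [h5]
  field_simp
  ring

end

end Vale.Agent.P184.PG

end
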