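import Vale.Agent.P184.R4.G2

/-!
# Pulling back, polynomial conjugacy bounds, relatively hyperbolic groups: polynomial growth
-/

noncomputable section

namespace Vale.Agent.P184.PG

open Equiv (Perm)

universe u v w

theorem eulerPol_of_charged {G : Type*} [Group G] {x : G} (h : Charged x) :
    ∃ L : G → ℝ, IsLength L ∧ EulerPol L x := by
  obtain ⟨L, f, c, hL, hc, h1, h2, h3⟩ := exists_lipschitz h
  refine ⟨L, hL, fun p q => (f q - f p) / c, 1, fun _ => 0, Nat.one_pos, ?_, ?_, ?_,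
    fun _ _ _ => rfl, fun _ _ => rfl, PolyB.const hL 0, fun p => ?_⟩
  · intro k p q hk
    simp only [h2 k p q hk]
  · intro p q
    simp only [h1]
    field_simp
    ring
  · refine PolyB.of_linear |c|⁻¹ (by (clear * - hc; positivity)) fun p => ?_
    rw [abs_div, div_eq_inv_mul]
    refine mul_le_mul_of_nonneg_left ?_ (by positivity)
    rw [abs_le]
    have h4 := h3 (p 0) (p 1)
    have h5 := h3 (p 1) (p 0)
    have h6 := single_le_siz (x := x) hL p 0 1
    have h7 := single_le_siz (x := x) hL p 1 0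
    constructor <;> linarith only [h4, h6, h5, h7]
  · refine Finset.sum_eq_zero fun σ _ => ?_
    have h4 : cupPow (fun p q => (f q - f p) / c) 1 (fun i => p (σ i)) = 0 := by
      unfold cupPow
      rw [Fin.prod_univ_one]
      unfold dee
      ring
    rw [h4]
    simp only [Nat.reduceMul, Nat.reduceAdd, DData.cob, mul_zero, Finset.sum_const_zero, sub_self]

theorem tamePol_of_charged {G : Type*} [Group G] {x : G} (h : Charged x) : TamePol x :=
  eulerPol_of_charged h

theorem cycPol_of_pull {G K : Type*} [Group G] [Group K] {x : G} {y : K} {L : G → ℝ} {l : K → ℝ}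
    (hL : IsLength L) (hl : IsLength l) (r : G → K) (hr : ∀ p, r (x * p) = y * r p)
    (hz : ∀ h, Commute h x → ∃ k, Commute k y ∧ ∀ p, r (h * p) = k * r p) {c d : ℝ} (hc : 0 < c)
    (hlip : ∀ p q, l ((r p)⁻¹ * r q) ≤ c * L (p⁻¹ * q) + d) {n : ℕ}
    {ψ : (Fin (2 * n) → K) → ℝ} (hn : 0 < n) (h1 : CInv y ψ) (h2 : PolyB y l ψ)
    (h3 : CycAnti y ψ) (h4 : ∀ p, DData.cob ψ p = 1) : CycPol x := by
  refine ⟨L, hL, n, fun p => ψ fun i => r (p i), hn, ?_, h2.pull hL hl r hr hc hlip, ?_,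
    fun p => h4 fun i => r (p i)⟩
  · intro g hg p
    obtain ⟨k, hk, hkr⟩ := hz g hg
    have := h1 k hk fun i => r (p i)
    unfold tra at *
    simp only [hkr]
    exact this
  · intro p hp
    exact h3 (fun i => r (p i)) (by rw [hp, hr])

theorem CycPol.pull {G K : Type*} [Group G] [Group K] {x : G} {y : K}
    (r : G → K) (hr : ∀ p, r (x * p) = y * r p)
    (hz : ∀ h, Commute h x → ∃ k, Commute k y ∧ ∀ p, r (h * p) = k * r p)
    (hfin : ∀ g, (Set.range fun p => (r p)⁻¹ * r (p * g)).Finite) (h : CycPol y) :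
    CycPol x := by
  obtain ⟨l, hl, n, ψ, hn, h1, h2, h3, h4⟩ := h
  obtain ⟨L, hL, hlip⟩ := exists_pull_length hl r hfin
  refine cycPol_of_pull hL hl r hr hz (c := 1) (d := 0) one_pos (fun p q => ?_) hn h1 h2 h3 h4
  rw [one_mul, add_zero]
  exact hlip p q

theorem CycPol.map {G K : Type*} [Group G] [Group K] (f : G →* K) {x : G}
    (h : CycPol (f x)) : CycPol x := by
  refine CycPol.pull f (fun p => map_mul f x p)
    (fun g hg => ⟨f g, hg.map f, fun p => map_mul f g p⟩) (fun g => ?_) h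
  refine (Set.finite_singleton (f g)).subset ?_
  rintro _ ⟨p, rfl⟩
  simp

theorem CycPol.conj {G : Type*} [Group G] {x : G} (w : G) (h : CycPol (w⁻¹ * x * w)) :
    CycPol x := by
  have h1 : CycPol (MulAut.conj w⁻¹ x) := by
    rw [MulAut.conj_apply, inv_inv]
    exact h
  exact CycPol.map (MulAut.conj w⁻¹).toMonoidHom h1

theorem cycPol_conj {G : Type*} [Group G] {x y : G} (h : IsConj x y) (hx : CycPol x) :
    CycPol y := by
  obtain ⟨c, hc⟩ := isConj_iff.mp h
  refine CycPol.conj c ?_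
  have h1 : c⁻¹ * y * c = x := by
    rw [← hc]
    group
  rw [h1]
  exact hx

section

variable {G : Type*} [Group G] {L : G → ℝ} {x : G}

theorem cycPol_of_poly (hL : IsLength L)
    (hconj : ∃ (C : ℝ) (d : ℕ), ∀ p, ∃ h, Commute h x ∧
      L (h⁻¹ * p) ≤ C * (1 + L (p⁻¹ * x * p)) ^ d)
    {n : ℕ} (hn : 0 < n) (ψ : (Fin (2 * n) → G) → ℝ)
    (h1 : ∀ h, Commute h x → ∀ p : Fin (2 * n) → G, (∀ i, Commute (p i) x) →
      ψ (fun i => h * p i) = ψ p)
    (h2 : ∀ p : ℕ → G, (∀ i, Commute (p i) x) → p (2 * n) = x * p 0 →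
      ψ (fun i => p (i + 1)) = - ψ fun i => p i)
    (h3 : ∀ p : Fin (2 * n + 1) → G, (∀ i, Commute (p i) x) → DData.cob ψ p = 1)
    (h4 : ∃ (C : ℝ) (d : ℕ), ∀ p : Fin (2 * n) → G, (∀ i, Commute (p i) x) →
      |ψ p| ≤ C * (1 + ∑ i, ∑ j, L ((p i)⁻¹ * p j)) ^ d) : CycPol x := by
  obtain ⟨r, A, D, hA, hrz, hrA⟩ := exists_poly_retraction hL hconj
  obtain ⟨C, d, hC⟩ := h4
  set xz : Subgroup.centralizer {x} := ⟨x, self_mem_cen x⟩ with hxz
  have hrx : ∀ p, (r (x * p) : G) = x * r p := fun p => congrArg Subtype.val (hrz xz p)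
  have hrh : ∀ h (_ : Commute h x) p, (r (h * p) : G) = h * r p := fun h hh p =>
    congrArg Subtype.val (hrz ⟨h, Subgroup.mem_centralizer_singleton_iff.2 hh⟩ p)
  have hrc : ∀ p, Commute (r p : G) x := fun p => Subgroup.mem_centralizer_singleton_iff.1 (r p).2
  -- the main estimate
  have key : ∀ {m : ℕ} (p : Fin m → G) (i j : Fin m),
      L ((r (p i) : G)⁻¹ * (r (p j) : G)) ≤ (2 * A + 1) * (1 + siz x L p) ^ (D + 1) := by
    intro m p i j
    have hs0 := siz_nonneg (x := x) hL p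
    have hs : ∀ k : Fin m, L ((p k)⁻¹ * x * p k) ≤ siz x L p := by
      intro k
      have e1 : L ((p k)⁻¹ * x * p k) ≤ ∑ k, L ((p k)⁻¹ * x * p k) :=
        Finset.single_le_sum (f := fun k => L ((p k)⁻¹ * x * p k)) (fun _ _ => hL.nonneg _)
          (Finset.mem_univ k)
      have e2 : 0 ≤ ∑ i, ∑ j, L ((p i)⁻¹ * p j) :=
        Finset.sum_nonneg fun _ _ => Finset.sum_nonneg fun _ _ => hL.nonneg _
      unfold siz
      linarith only [e2, e1]
    have hr : ∀ k : Fin m, L ((r (p k) : G)⁻¹ * p k) ≤ A * (1 + siz x L p) ^ D := by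
      intro k
      refine (hrA (p k)).trans (mul_le_mul_of_nonneg_left ?_ hA)
      exact pow_le_pow_left₀ (by have := hL.nonneg ((p k)⁻¹ * x * p k); linarith only [this])
        (by linarith only [hs k]) D
    have e1 : (r (p i) : G)⁻¹ * (r (p j) : G) =
        ((r (p i) : G)⁻¹ * p i) * ((p i)⁻¹ * p j) * ((r (p j) : G)⁻¹ * p j)⁻¹ := by group
    have e2 := hL.2.2 (((r (p i) : G)⁻¹ * p i) * ((p i)⁻¹ * p j)) ((r (p j) : G)⁻¹ * p j)⁻¹
    have e3 := hL.2.2 ((r (p i) : G)⁻¹ * p i) ((p i)⁻¹ * p j)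
    rw [hL.2.1 ((r (p j) : G)⁻¹ * p j)] at e2
    rw [e1]
    have e4 := hr i
    have e5 := hr j
    have e6 := single_le_siz (x := x) hL p i j
    have e7 : (1 + siz x L p) ^ D ≤ (1 + siz x L p) ^ (D + 1) :=
      pow_le_pow_right₀ (by linarith only [hs0]) (Nat.le_succ D)
    have e8 : siz x L p ≤ (1 + siz x L p) ^ (D + 1) := by
      have : 1 + siz x L p ≤ (1 + siz x L p) ^ (D + 1) := le_self_pow₀ (by linarith only [hs0]) (by omega)
      linarith only [this]
    have e9 := mul_le_mul_of_nonneg_left e7 hA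
    linarith
  refine ⟨L, hL, n, fun p => ψ fun i => r (p i), hn, ?_, ?_, ?_,
    fun p => h3 (fun i => r (p i)) fun i => hrc _⟩
  · intro h hh p
    unfold tra
    simp only [hrh h hh]
    exact h1 h hh _ fun i => hrc _
  · set N : ℝ := ((2 * n : ℕ) : ℝ) with hN
    have hN0 : 0 ≤ N := Nat.cast_nonneg _
    refine PolyB.of_poly hL (|C| * (N * N * (2 * A + 1) + 1) ^ d) ((D + 1) * d) fun p => ?_
    have hs0 := siz_nonneg (x := x) hL p
    have h5 : ∑ i, ∑ j, L ((r (p i) : G)⁻¹ * (r (p j) : G)) ≤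
        N * N * ((2 * A + 1) * (1 + siz x L p) ^ (D + 1)) := by
      calc ∑ i, ∑ j, L ((r (p i) : G)⁻¹ * (r (p j) : G))
          ≤ ∑ i : Fin (2 * n), ∑ j : Fin (2 * n), (2 * A + 1) * (1 + siz x L p) ^ (D + 1) :=
            Finset.sum_le_sum fun i _ => Finset.sum_le_sum fun j _ => key p i j
        _ = _ := by
            simp only [Finset.sum_const, Finset.card_univ, Fintype.card_fin, nsmul_eq_mul, hN]
            ring
    have h8 : (1 : ℝ) ≤ (1 + siz x L p) ^ (D + 1) := one_le_pow₀ (by linarith only [hs0])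
    have h6 : 1 + ∑ i, ∑ j, L ((r (p i) : G)⁻¹ * (r (p j) : G)) ≤
        (N * N * (2 * A + 1) + 1) * (1 + siz x L p) ^ (D + 1) := by
      linarith only [h8, h5]
    have h7 : 0 ≤ 1 + ∑ i, ∑ j, L ((r (p i) : G)⁻¹ * (r (p j) : G)) := by
      have : 0 ≤ ∑ i, ∑ j, L ((r (p i) : G)⁻¹ * (r (p j) : G)) :=
        Finset.sum_nonneg fun _ _ => Finset.sum_nonneg fun _ _ => hL.nonneg _
      linarith only [this]
    calc |ψ fun i => r (p i)| ≤
          C * (1 + ∑ i, ∑ j, L ((r (p i) : G)⁻¹ * (r (p j) : G))) ^ d :=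
          hC _ fun i => hrc _
      _ ≤ |C| * (1 + ∑ i, ∑ j, L ((r (p i) : G)⁻¹ * (r (p j) : G))) ^ d :=
          mul_le_mul_of_nonneg_right (le_abs_self C) (by (clear * - h7; positivity))
      _ ≤ |C| * ((N * N * (2 * A + 1) + 1) * (1 + siz x L p) ^ (D + 1)) ^ d :=
          mul_le_mul_of_nonneg_left (pow_le_pow_left₀ h7 h6 d) (abs_nonneg C)
      _ = _ := by rw [mul_pow, ← pow_mul]; ring
  · intro p hp
    exact h2 (fun i => r (p i)) (fun i => hrc _) (by rw [hp, hrx])

end

theorem locPol_of_cyc {G : Type*} [Group G] {x : G} (hx : CycPol x) : LocPol x :=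
  fun S h => CycPol.map (x := (⟨x, h⟩ : Subgroup.closure (S : Set G)))
    (Subgroup.closure (S : Set G)).subtype hx

theorem locPol_of_map {G : Type*} {H : Type*} [Group G] [Group H] (f : G →* H) {x : G}
    (hx : LocPol (f x)) : LocPol x := by
  classical
  intro S h
  have h1 : ∀ g ∈ Subgroup.closure (S : Set G),
      f g ∈ Subgroup.closure ((S.image f : Finset H) : Set H) := by
    intro g hg
    rw [Finset.coe_image, ← MonoidHom.map_closure]
    exact Subgroup.mem_map_of_mem f hg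
  let π : Subgroup.closure (S : Set G) →* Subgroup.closure ((S.image f : Finset H) : Set H) :=
    { toFun := fun g => ⟨f (g : G), h1 g g.2⟩
      map_one' := Subtype.ext (map_one f)
      map_mul' := fun a b => Subtype.ext (map_mul f (a : G) (b : G)) }
  exact CycPol.map π (x := ⟨x, h⟩) (hx (S.image f) (h1 x h))

theorem locPol_conj {G : Type*} [Group G] {x : G} (w : G) (h : LocPol (w⁻¹ * x * w)) :
    LocPol x := by
  have h1 : LocPol (MulAut.conj w⁻¹ x) := by
    rw [MulAut.conj_apply, inv_inv]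
    exact h
  exact locPol_of_map (MulAut.conj w⁻¹).toMonoidHom h1

end Vale.Agent.P184.PG

namespace Vale.Agent.P184.RH

open Vale.Agent.P184.PG

variable {G : Type*} [Group G] {ι : Type*} {X : Set G} {H : ι → Subgroup G} {δ : ℕ}
  (S : RH X H δ)
include S

theorem locPol_of_peripheral {l : ι} {y : H l} (hy : ¬ IsOfFinOrder y) (h : LocPol y) :
    LocPol (y : G) := by
  classical
  intro Q hyQ
  have hy' : ¬ IsOfFinOrder (y : G) := by
    rwa [Submonoid.isOfFinOrder_coe (H := (H l).toSubmonoid)]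
  have hfin : (⋃ s ∈ Q, Set.range fun p => (S.prj l p)⁻¹ * S.prj l (p * s)).Finite :=
    Q.finite_toSet.biUnion fun s _ => S.finite_steps l s
  set T : Finset (H l) := hfin.toFinset with hT
  have hK : ∀ g ∈ Subgroup.closure (Q : Set G), ∀ p,
      (S.prj l p)⁻¹ * S.prj l (p * g) ∈ Subgroup.closure (T : Set (H l)) := by
    intro g hg
    induction hg using Subgroup.closure_induction with
    | mem s hs =>
      intro p
      apply Subgroup.subset_closure
      rw [Finset.mem_coe, hT, Set.Finite.mem_toFinset]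
      exact Set.mem_biUnion (x := s) hs ⟨p, rfl⟩
    | one =>
      intro p
      rw [mul_one, inv_mul_cancel]
      exact Subgroup.one_mem _
    | mul a b _ _ ha hb =>
      intro p
      have h1 := Subgroup.mul_mem _ (ha p) (hb (p * a))
      rwa [show (S.prj l p)⁻¹ * S.prj l (p * a) * ((S.prj l (p * a))⁻¹ * S.prj l (p * a * b)) =
        (S.prj l p)⁻¹ * S.prj l (p * (a * b)) by rw [mul_assoc p a b]; group] at h1
    | inv a _ ha =>
      intro p
      have h1 := Subgroup.inv_mem _ (ha (p * a⁻¹))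
      rwa [inv_mul_cancel_right, mul_inv_rev, inv_inv] at h1
  have hR : ∀ g ∈ Subgroup.closure (Q : Set G),
      S.prj l g ∈ Subgroup.closure (T : Set (H l)) := by
    intro g hg
    have := hK g hg 1
    rwa [S.prj_one, inv_one, one_mul, one_mul] at this
  have hself : ∀ z : H l, S.prj l (z : G) = z := fun z => Subtype.ext (S.proj_self z.2)
  have hyT : y ∈ Subgroup.closure (T : Set (H l)) := by
    have := hR _ hyQ
    rwa [hself] at this
  let r : Subgroup.closure (Q : Set G) → Subgroup.closure (T : Set (H l)) :=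
    fun g => ⟨S.prj l (g : G), hR g g.2⟩
  have hmul : ∀ (z : H l) (p : G), S.prj l ((z : G) * p) = z * S.prj l p :=
    fun z p => Subtype.ext (proj_smul z.2 p)
  refine CycPol.pull r (y := ⟨y, hyT⟩) (fun p => Subtype.ext (hmul y p)) (fun g hg => ?_)
    (fun g => ?_) (h T hyT)
  · have hg' : Commute (g : G) (y : G) := congrArg Subtype.val hg
    have hgl : (g : G) ∈ H l := S.mem_of_commute y.2 hy' hg'
    have hgT : (⟨(g : G), hgl⟩ : H l) ∈ Subgroup.closure (T : Set (H l)) := by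
      have := hR _ g.2
      rwa [hself ⟨(g : G), hgl⟩] at this
    refine ⟨⟨⟨(g : G), hgl⟩, hgT⟩, ?_, fun p => Subtype.ext (hmul ⟨(g : G), hgl⟩ p)⟩
    exact Subtype.ext (Subtype.ext hg')
  · refine Set.Finite.of_finite_image ((S.finite_steps l (g : G)).subset ?_)
      (Subtype.val_injective.injOn (s := Set.range fun p => (r p)⁻¹ * r (p * g)))
    rintro _ ⟨_, ⟨p, rfl⟩, rfl⟩
    exact ⟨(p : G), rfl⟩

end Vale.Agent.P184.RH

namespace Vale.Agent.P184.PG

/-- In a relatively hyperbolic group. -/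
theorem relHyp_locPol {G : Type*} [Group G] {ι : Type*} {H : ι → Subgroup G}
    (hG : RelHyperbolic H) (hH : ∀ l (y : H l), ¬ IsOfFinOrder y → LocPol y) (x : G)
    (hx : ¬ IsOfFinOrder x) : LocPol x := by
  obtain ⟨hfin, X, δ, S⟩ := hG.exists_rh
  rcases S.charged_or_parabolic hx with h | ⟨l, w, h⟩
  · exact locPol_of_cyc (cycPol_of_tame (tamePol_of_charged h))
  · have hx' : ¬ IsOfFinOrder (w⁻¹ * x * w) := by
      intro h'
      apply hx
      refine IsConj.isOfFinOrder (isConj_iff.2 ⟨w, ?_⟩) h'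
      group
    have h3 : ¬ IsOfFinOrder (⟨w⁻¹ * x * w, h⟩ : H l) := by
      rwa [← Submonoid.isOfFinOrder_coe (H := (H l).toSubmonoid)]
    exact locPol_conj w (S.locPol_of_peripheral h3 (hH l _ h3))

end Vale.Agent.P184.PG

end
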