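import Vale.Agent.P184.R4.G3

/-!
# Connections of finite rank and polynomial growth: unitriangular groups
-/

noncomputable section

open scoped Topology

namespace Vale.Agent.P184.PG

open Equiv (Perm)

/-- The element `x` carries a connection of finite rank and polynomial growth. -/
def FinRankP {G : Type*} [Group G] (L : G → ℝ) (x : G) : Prop :=
  ∃ α : G → G → ℝ, (∀ h p q, Commute h x → α (h * p) (h * q) = α p q) ∧
    (∀ p q, α p (x * q) = α p q + 1) ∧ PolyB x L (fun p : Fin 2 → G => α (p 0) (p 1)) ∧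
    ∃ (r : ℕ) (a b : Fin r → G → ℝ), ∀ p q, α p q = ∑ i, a i p * b i q

theorem eulerPol_of_finRank {G : Type*} [Group G] {x : G} {L : G → ℝ} (hL : IsLength L)
    (hx : FinRankP L x) : EulerPol L x := by
  obtain ⟨α₀, h1, h2, h3, r₀, a₀, b₀, h4⟩ := hx
  -- normalize on the diagonal
  set α : G → G → ℝ := fun p q => α₀ p q - α₀ q q with hα
  have hxx : ∀ q, α₀ (x * q) (x * q) = α₀ q q := fun q => h1 x q q (Commute.refl x)
  have g1 : ∀ h p q, Commute h x → α (h * p) (h * q) = α p q := by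
    intro h p q hh
    simp only [hα]
    rw [h1 h p q hh, h1 h q q hh]
  have g2 : ∀ p q, α p (x * q) = α p q + 1 := by
    intro p q
    simp only [hα]
    rw [h2, hxx]
    ring
  have g3 : PolyB x L (fun p : Fin 2 → G => α (p 0) (p 1)) := by
    have h5 := h3.comp hL (m := 2) ![1, 1]
    have h6 := h3.add (h5.smul hL (-1))
    obtain ⟨C, d, hC⟩ := h6
    refine ⟨C, d, fun p => ?_⟩
    have h7 := hC p
    simp only [Matrix.cons_val_zero, Matrix.cons_val_one] at h7
    have h8 : α (p 0) (p 1) = α₀ (p 0) (p 1) + -1 * α₀ (p 1) (p 1) := by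
      simp only [hα]; ring
    change |α (p 0) (p 1)| ≤ _
    rw [h8]
    exact h7
  set r := r₀ + 1 with hr
  set a : Fin r → G → ℝ := Fin.cons (fun _ => -1) a₀ with ha
  set b : Fin r → G → ℝ := Fin.cons (fun q => α₀ q q) b₀ with hb
  have g4 : ∀ p q, α p q = ∑ i, a i p * b i q := by
    intro p q
    rw [Fin.sum_univ_succ]
    simp only [ha, hb, Fin.cons_zero, Fin.cons_succ, hα, h4 p q]
    ring
  have g5 : ∀ p, α p p = 0 := fun p => sub_self _
  refine ⟨α, r + 1, fun _ => 0, Nat.succ_pos _, g1, g2, g3, fun _ _ _ => rfl, fun _ _ => rfl,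
    PolyB.const hL 0, fun p => ?_⟩
  refine Eq.trans ?_ (alt_cupPow_finite_rank α a b g4 g5 p)
  refine Finset.sum_congr rfl fun σ _ => ?_
  simp only [DData.cob, mul_zero, Finset.sum_const_zero, sub_zero]

section general

variable {G : Type*} [Group G] {L : G → ℝ} {x : G}


/-- Averaging over the cosets of a finite index subgroup of the centralizer. -/
theorem finRank_average (hL : IsLength L) (K : Subgroup G) [K.FiniteIndex]
    (α : G → G → ℝ) (h1 : ∀ h ∈ K, Commute h x → ∀ p q, α (h * p) (h * q) = α p q)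
    (h2 : ∀ p q, α p (x * q) = α p q + 1)
    (h3 : PolyB x L (fun p : Fin 2 → G => α (p 0) (p 1)))
    (h4 : ∃ (r : ℕ) (a b : Fin r → G → ℝ), ∀ p q, α p q = ∑ i, a i p * b i q) :
    FinRankP L x := by
  classical
  set Z : Subgroup G := Subgroup.centralizer {x} with hZ
  have hZc : ∀ t : Z, Commute (t : G) x := fun t =>
    (Subgroup.mem_centralizer_singleton_iff.1 t.2)
  set N : Subgroup Z := K.subgroupOf Z with hN
  have : Finite (Z ⧸ N) := inferInstance
  have := Fintype.ofFinite (Z ⧸ N)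
  set F : G → G → Z → ℝ := fun p q t => α ((t : G)⁻¹ * p) ((t : G)⁻¹ * q) with hF
  have hconst : ∀ p q (t : Z) (k : N), F p q (t * k) = F p q t := by
    intro p q t k
    simp only [hF, Subgroup.coe_mul, mul_inv_rev, mul_assoc]
    exact h1 _ (K.inv_mem (Subgroup.mem_subgroupOf.1 k.2)) (hZc k).inv_left _ _
  have hout : ∀ p q (t : Z), F p q (Quotient.out (t : Z ⧸ N)) = F p q t := by
    intro p q t
    obtain ⟨k, hk⟩ := QuotientGroup.mk_out_eq_mul N t
    rw [hk, hconst]
  set c : ℝ := (Fintype.card (Z ⧸ N) : ℝ)⁻¹ with hc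
  have hc0 : (Fintype.card (Z ⧸ N) : ℝ) ≠ 0 := by
    have : 0 < Fintype.card (Z ⧸ N) := Fintype.card_pos_iff.2 ⟨((1 : Z) : Z ⧸ N)⟩
    positivity
  refine ⟨fun p q => c * ∑ s : Z ⧸ N, F p q s.out, ?_, ?_, ?_, ?_⟩
  · intro h p q hh
    have hhZ : h ∈ Z := Subgroup.mem_centralizer_singleton_iff.2 hh
    change c * ∑ s : Z ⧸ N, F (h * p) (h * q) s.out = c * ∑ s : Z ⧸ N, F p q s.out
    rw [← Equiv.sum_comp (MulAction.toPerm (⟨h, hhZ⟩⁻¹ : Z)) fun s : Z ⧸ N => F p q s.out]
    congr 1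
    refine Finset.sum_congr rfl fun s _ => ?_
    rw [MulAction.toPerm_apply]
    have e1 : ((⟨h, hhZ⟩⁻¹ : Z) • s : Z ⧸ N) = (((⟨h, hhZ⟩⁻¹ : Z) * s.out : Z) : Z ⧸ N) := by
      conv_lhs => rw [← Quotient.out_eq' s]
      rfl
    rw [e1, hout]
    simp only [hF, Subgroup.coe_mul, Subgroup.coe_inv, mul_inv_rev, inv_inv, mul_assoc]
  · intro p q
    have e1 : ∀ s : Z ⧸ N, F p (x * q) s.out = F p q s.out + 1 := by
      intro s
      simp only [hF]
      have h5 := (hZc (Quotient.out s)).inv_left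
      rw [← mul_assoc, h5.eq, mul_assoc, h2]
    simp only [e1]
    rw [Finset.sum_add_distrib, Finset.sum_const, nsmul_eq_mul, mul_one, mul_add, hc,
      Finset.card_univ, inv_mul_cancel₀ hc0]
  · refine PolyB.smul hL c (PolyB.sum hL Finset.univ fun s _ => ?_)
    exact h3.tra (hZc (Quotient.out s)).inv_left
  · obtain ⟨r, a, b, hab⟩ := h4
    refine exists_fin_rank (κ := (Z ⧸ N) × Fin r) _
      (fun k p => c * a k.2 ((k.1.out : G)⁻¹ * p)) (fun k q => b k.2 ((k.1.out : G)⁻¹ * q)) ?_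
    intro p q
    rw [Fintype.sum_prod_type, Finset.mul_sum]
    refine Finset.sum_congr rfl fun s _ => ?_
    simp only [hF, hab, Finset.mul_sum]
    refine Finset.sum_congr rfl fun i _ => ?_
    ring

theorem length_pow (hL : IsLength L) (g : G) (j : ℕ) : L (g ^ j) ≤ j * L g := by
  induction j with
  | zero => simp only [pow_zero, hL.1, CharP.cast_eq_zero, zero_mul, Std.le_refl]
  | succ j ih =>
    have := hL.2.2 (g ^ j) g
    rw [pow_succ]
    push_cast
    linarith only [ih, this]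

/-- Roots. -/
theorem finRank_of_pow (hL : IsLength L) {m : ℕ} (h : FinRankP L (x ^ m)) :
    FinRankP L x := by
  obtain ⟨α, h1, h2, h3, r, a, b, h4⟩ := h
  have hcx : ∀ {h : G}, Commute h x → Commute h (x ^ m) := fun hh => hh.pow_right m
  refine ⟨fun p q => ∑ j ∈ Finset.range m, α p (x ^ j * q), ?_, ?_, ?_, ?_⟩
  · intro h p q hh
    refine Finset.sum_congr rfl fun j _ => ?_
    have h5 := (hh.pow_right j).eq
    rw [← mul_assoc, ← h5, mul_assoc]
    exact h1 h _ _ (hcx hh)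
  · intro p q
    have h5 := Finset.sum_range_succ (fun j => α p (x ^ j * q)) m
    have h6 := Finset.sum_range_succ' (fun j => α p (x ^ j * q)) m
    simp only [pow_zero, one_mul] at h6
    rw [h5, h2] at h6
    have h7 : ∑ j ∈ Finset.range m, α p (x ^ j * (x * q)) =
        ∑ j ∈ Finset.range m, α p (x ^ (j + 1) * q) := by
      refine Finset.sum_congr rfl fun j _ => ?_
      rw [pow_succ, mul_assoc]
    change ∑ j ∈ Finset.range m, α p (x ^ j * (x * q)) =
      ∑ j ∈ Finset.range m, α p (x ^ j * q) + 1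
    rw [h7]
    linarith only [h6]
  · refine PolyB.sum hL _ fun j _ => ?_
    refine h3.of_siz_le hL (fun p : Fin 2 → G => ![p 0, x ^ j * p 1])
      (c := 2 * (j + 1) + m) (by positivity) fun p => ?_
    -- estimate the size
    have e0 : siz x L p = L ((p 0)⁻¹ * p 1) + L ((p 1)⁻¹ * p 0) + L ((p 0)⁻¹ * x * p 0) +
        L ((p 1)⁻¹ * x * p 1) := by
      unfold siz
      simp only [Fin.sum_univ_two, inv_mul_cancel, hL.1]
      ring
    have e1 : siz (x ^ m) L ![p 0, x ^ j * p 1] = L ((p 0)⁻¹ * (x ^ j * p 1)) +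
        L ((x ^ j * p 1)⁻¹ * p 0) + L ((p 0)⁻¹ * x ^ m * p 0) +
        L ((x ^ j * p 1)⁻¹ * x ^ m * (x ^ j * p 1)) := by
      unfold siz
      simp only [Fin.sum_univ_two, inv_mul_cancel, hL.1, Matrix.cons_val_zero, Matrix.cons_val_one]
      ring
    have e2 : ∀ (k : ℕ) (g : G), L (g⁻¹ * x ^ k * g) ≤ k * L (g⁻¹ * x * g) := by
      intro k g
      have h5 := length_pow hL (g⁻¹ * x * g) k
      have h6 : (g⁻¹ * x * g) ^ k = g⁻¹ * x ^ k * g := by
        have := conj_pow (a := g⁻¹) (b := x) (i := k)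
        rw [inv_inv] at this
        exact this
      rwa [h6] at h5
    have e3 : L ((p 0)⁻¹ * (x ^ j * p 1)) ≤ j * L ((p 0)⁻¹ * x * p 0) + L ((p 0)⁻¹ * p 1) := by
      have h5 := hL.2.2 ((p 0)⁻¹ * x ^ j * p 0) ((p 0)⁻¹ * p 1)
      rw [show (p 0)⁻¹ * x ^ j * p 0 * ((p 0)⁻¹ * p 1) = (p 0)⁻¹ * (x ^ j * p 1) by group] at h5
      linarith only [e2 j (p 0), h5]
    have e4 : L ((x ^ j * p 1)⁻¹ * p 0) ≤ j * L ((p 0)⁻¹ * x * p 0) + L ((p 0)⁻¹ * p 1) := by
      rw [← hL.2.1]
      rwa [show ((x ^ j * p 1)⁻¹ * p 0)⁻¹ = (p 0)⁻¹ * (x ^ j * p 1) by group]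
    have e5 : L ((x ^ j * p 1)⁻¹ * x ^ m * (x ^ j * p 1)) ≤ m * L ((p 1)⁻¹ * x * p 1) := by
      rw [show (x ^ j * p 1)⁻¹ * x ^ m * (x ^ j * p 1) = (p 1)⁻¹ * x ^ m * p 1 by
        have h5 : x ^ m * x ^ j = x ^ j * x ^ m := by rw [← pow_add, ← pow_add, add_comm]
        calc (x ^ j * p 1)⁻¹ * x ^ m * (x ^ j * p 1)
            = (p 1)⁻¹ * (x ^ j)⁻¹ * (x ^ m * x ^ j) * p 1 := by group
          _ = (p 1)⁻¹ * x ^ m * p 1 := by rw [h5]; group]
      exact e2 m (p 1)
    have n1 := hL.nonneg ((p 0)⁻¹ * p 1)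
    have n2 := hL.nonneg ((p 1)⁻¹ * p 0)
    have n3 := hL.nonneg ((p 0)⁻¹ * x * p 0)
    have n4 := hL.nonneg ((p 1)⁻¹ * x * p 1)
    have e6 := e2 m (p 0)
    rw [e0, e1]
    have hj : (0 : ℝ) ≤ j := Nat.cast_nonneg j
    have hm : (0 : ℝ) ≤ m := Nat.cast_nonneg m
    linarith only [mul_nonneg hm n2, mul_nonneg hm n1, mul_nonneg hj n4, mul_nonneg hj n2, mul_nonneg hj n1, e6, n4, n3, n2, e5, e4, e3]
  · refine exists_fin_rank (κ := Finset.range m × Fin r) _ (fun k p => a k.2 p)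
      (fun k q => b k.2 (x ^ (k.1 : ℕ) * q)) ?_
    intro p q
    rw [Fintype.sum_prod_type, ← Finset.sum_coe_sort]
    refine Finset.sum_congr rfl fun j _ => ?_
    exact h4 _ _

end general



/-- Elements detected by unitriangular representations of finite index subgroups are tame. -/
theorem tamePol_of_uniDetected {G : Type*} [Group G] {x : G} (hx : UniDetected x) : TamePol x := by
  obtain ⟨K, m, n, ρ, hm, hK, hρ, hne⟩ := hx
  obtain ⟨i, j, hij, hc, hmin⟩ := exists_min_entry (fun i j => hρ ⟨x ^ m, hm⟩ i j) hne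
  set z : K := ⟨x ^ m, hm⟩ with hz
  set l : K → ℝ := fun g => max (hnorm ρ g) (hnorm ρ g⁻¹) with hl
  obtain ⟨L, hL, hlip⟩ := exists_pull_length (isLength_hnorm hρ) (cret K) (finite_cret K)
  have hfr : FinRankP L (x ^ m) := by
    refine finRank_average hL K
      (fun p q => ρ ((cret K p)⁻¹ * cret K q) i j / ρ z i j) ?_ ?_ ?_ ?_
    · intro h hh _ p q
      have h1 := cret_mul K ⟨h, hh⟩ p
      have h2 := cret_mul K ⟨h, hh⟩ q
      simp only at h1 h2
      rw [h1, h2]
      congr 3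
      group
    · intro p q
      have h1 := cret_mul K z q
      simp only [hz] at h1
      rw [h1, ← hz, entry_shift hρ hmin hij]
      field_simp
    · refine PolyB.of_poly hL (|ρ z i j|⁻¹) n fun p => ?_
      rw [abs_div, div_eq_inv_mul]
      refine mul_le_mul_of_nonneg_left ?_ (by (clear * - hc; positivity))
      refine (abs_entry_le hρ _ i j).trans ?_
      refine pow_le_pow_left₀ ?_ ?_ n
      · have h0 : 0 ≤ l ((cret K (p 0))⁻¹ * cret K (p 1)) := (isLength_hnorm hρ).nonneg _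
        change 0 ≤ 1 + l ((cret K (p 0))⁻¹ * cret K (p 1))
        linarith only [h0]
      · have h1 : l ((cret K (p 0))⁻¹ * cret K (p 1)) ≤ L ((p 0)⁻¹ * p 1) := hlip (p 0) (p 1)
        have h2 := single_le_siz (x := x ^ m) hL p 0 1
        change 1 + l ((cret K (p 0))⁻¹ * cret K (p 1)) ≤ _
        linarith only [h2, h1]
    · refine exists_fin_rank (κ := Fin n) _ (fun k p => ρ (cret K p)⁻¹ i k)
        (fun k q => ρ (cret K q) k j / ρ z i j) fun p q => ?_
      rw [map_mul, Matrix.mul_apply, Finset.sum_div]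
      refine Finset.sum_congr rfl fun k _ => ?_
      ring
  exact ⟨L, hL, eulerPol_of_finRank hL (finRank_of_pow hL hfr)⟩


end Vale.Agent.P184.PG

end
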