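import Vale.Agent.P184.R3.UDefs

/-!
# Definitions: the strong `ℓ¹`-Bass conjecture for the algebra of rapidly decaying functions
-/

namespace Vale.Agent.P184.Un

variable {G : Type*} [Group G]

/-- The entries of `a` decay rapidly with respect to `L`, i.e. they lie in the algebra
`H^{1,∞}_L(G)`. -/
def RapDecay (L : G → ℝ) {q : ℕ} (a : Mat G q) : Prop :=
  ∀ (k : ℕ) (i j : Fin q), Summable fun g => ‖a i j g‖ * (1 + L g) ^ k

/-- The chain `c` decays rapidly with respect to `L`. -/
def RapChain (L : G → ℝ) {n : ℕ} (c : (Fin n → G) → ℂ) : Prop :=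
  ∀ k : ℕ, Summable fun g => ‖c g‖ * (1 + ∑ i, L (g i)) ^ k

/-- The chain `c` of degree `n` is a boundary in the cyclic complex (chains modulo the image of
`1 - cyc`, with the boundary map `bdy`) of chains which decay rapidly with respect to `L` and are
supported at the tuples whose product is conjugate to `x`. -/
def IsRapBdy (L : G → ℝ) (x : G) {n : ℕ} (c : (Fin (n + 1) → G) → ℂ) : Prop :=
  ∃ (b : (Fin (n + 2) → G) → ℂ) (a : (Fin (n + 1) → G) → ℂ), RapChain L b ∧ RapChain L a ∧
    (∀ g, ¬ IsConj x (List.ofFn g).prod → b g = 0) ∧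
    (∀ g, ¬ IsConj x (List.ofFn g).prod → a g = 0) ∧ ∀ g, c g = bdy b g + (a g - cyc a g)

/-- The components at `x` of the Chern characters of the idempotents which decay rapidly, in all
even degrees, are boundaries. -/
def RapEven (L : G → ℝ) (x : G) : Prop :=
  ∀ (m q : ℕ) (e : Mat G q), IsIdem e → RapDecay L e →
    IsRapBdy L x (chern x (2 * m) fun _ => e)

/-- The components at `x` of the Chern characters `tr ((u⁻¹ - 1) ⊗ (u - 1) ⊗ ... ⊗ (u - 1))` of the
invertible matrices `u` such that `u` and its inverse decay rapidly, in all odd degrees, are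
boundaries. -/
def RapOdd (L : G → ℝ) (x : G) : Prop :=
  ∀ (m q : ℕ) (u v : Mat G q), IsInv u v → RapDecay L u → RapDecay L v →
    IsRapBdy L x (chern x (2 * m + 1) fun k => if Even k then v - unit G q else u - unit G q)

variable (G) in
/-- The strong `ℓ¹`-Bass conjecture for `G`, in its form for the algebra `H^{1,∞}_L(G)` of the
functions which decay rapidly with respect to a length function `L` dominating all others, like
the word length of a finitely generated group:
* the classes in `K_0(ℓ¹(G))` are represented by idempotents over this algebra,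
* the classes in `K_1(ℓ¹(G))` are represented by invertible matrices `v` over this algebra
  (`v = u w` with `w` at distance less than `1` from the unit),
* the Chern characters of all idempotents and of all invertible matrices over this algebra have,
  in its cyclic homology, component zero at the classes of the elements of infinite order. -/
def RapBass : Prop :=
  ∃ L : G → ℝ, IsLen L ∧ (∀ L', IsLen L' → ∃ c : ℝ, ∀ g, L' g ≤ c * L g) ∧
    (∀ (q : ℕ) (e : Mat G q), IsIdem e → ∃ f u v : Mat G q,
      IsIdem f ∧ RapDecay L f ∧ InL1 u ∧ InL1 v ∧ mul u v = e ∧ mul v u = f) ∧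
    (∀ (q : ℕ) (u u' : Mat G q), IsInv u u' → ∃ v v' w : Mat G q,
      IsInv v v' ∧ RapDecay L v ∧ RapDecay L v' ∧ InL1 w ∧ v = mul u w ∧
      ∑ i, ∑ j, ∑' g, ‖(w - unit G q) i j g‖ < 1) ∧
    ∀ x : G, ¬ IsOfFinOrder x → RapEven L x ∧ RapOdd L x

/-- For some length function `L`, a power of the periodicity operator annihilates the trace at
`x`, with polynomial growth in the quantities `L (p i⁻¹ * p j)` and `L (p i⁻¹ * x * p i)`. -/
def PolyTame (x : G) : Prop :=
  ∃ L : G → ℝ, IsLen L ∧ CycNil x fun n F => ∃ (C : ℝ) (d : ℕ), ∀ p : Fin n → G, |F p| ≤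
    C * (1 + ((∑ i, ∑ j, L ((p i)⁻¹ * p j)) + ∑ i, L ((p i)⁻¹ * x * p i))) ^ d

/-- `x` satisfies `PolyTame` in all finitely generated subgroups containing it. -/
def PolyLoc (x : G) : Prop :=
  ∀ (S : Finset G) (h : x ∈ Subgroup.closure (S : Set G)),
    PolyTame (⟨x, h⟩ : Subgroup.closure (S : Set G))

variable (G) in
/-- The elements of infinite order satisfy `PolyLoc`. -/
def PolyInf : Prop := ∀ x : G, ¬ IsOfFinOrder x → PolyLoc x

end Vale.Agent.P184.Un
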