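import Mathlib

/-!
# Slowly growing subadditive functions
-/

noncomputable section

namespace Vale.Agent.P184.PG

/-- a sum of slow logarithms -/
def slo (T : ℕ → ℝ) (t : ℝ) : ℝ := ∑' j, Real.log (1 + t / T j)

/-- admissible sequences -/
def Adms (T : ℕ → ℝ) : Prop := (∀ j, 1 ≤ T j) ∧ Summable fun j => 1 / T j

variable {T : ℕ → ℝ} (hT : Adms T)
include hT

theorem Adms.pos (j : ℕ) : 0 < T j := lt_of_lt_of_le one_pos (hT.1 j)

theorem Adms.log_nonneg {t : ℝ} (ht : 0 ≤ t) (j : ℕ) : 0 ≤ Real.log (1 + t / T j) :=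
  Real.log_nonneg (by have := div_nonneg ht (hT.pos j).le; linarith)

theorem Adms.summable {t : ℝ} (ht : 0 ≤ t) : Summable fun j => Real.log (1 + t / T j) := by
  refine Summable.of_nonneg_of_le (hT.log_nonneg ht) (fun j => ?_) (hT.2.mul_left t)
  have h1 := div_nonneg ht (hT.pos j).le
  have h2 := Real.log_le_sub_one_of_pos (x := 1 + t / T j) (by linarith)
  rw [mul_one_div]
  linarith

omit hT in
theorem slo_zero : slo T 0 = 0 := by
  unfold slo
  simp

theorem slo_nonneg {t : ℝ} (ht : 0 ≤ t) : 0 ≤ slo T t := tsum_nonneg (hT.log_nonneg ht)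

theorem slo_mono {s t : ℝ} (hs : 0 ≤ s) (h : s ≤ t) : slo T s ≤ slo T t := by
  refine (hT.summable hs).tsum_le_tsum (fun j => ?_) (hT.summable (hs.trans h))
  have h1 := div_nonneg hs (hT.pos j).le
  refine Real.log_le_log (by linarith) ?_
  have h2 := div_le_div_of_nonneg_right h (hT.pos j).le
  linarith

theorem slo_add {s t : ℝ} (hs : 0 ≤ s) (ht : 0 ≤ t) : slo T (s + t) ≤ slo T s + slo T t := by
  unfold slo
  rw [← (hT.summable hs).tsum_add (hT.summable ht)]
  refine (hT.summable (add_nonneg hs ht)).tsum_le_tsum (fun j => ?_)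
    ((hT.summable hs).add (hT.summable ht))
  have h1 := div_nonneg hs (hT.pos j).le
  have h2 := div_nonneg ht (hT.pos j).le
  rw [← Real.log_mul (by linarith) (by linarith)]
  refine Real.log_le_log (by rw [add_div]; linarith) ?_
  rw [add_div]
  nlinarith [mul_nonneg h1 h2]

/-- it grows faster than all multiples of the logarithm -/
theorem log_le_slo (k : ℕ) {t : ℝ} (ht : 0 ≤ t) :
    k * Real.log (1 + t) ≤ slo T t + ∑ j ∈ Finset.range k, Real.log (T j) := by
  have h1 : ∑ j ∈ Finset.range k, Real.log (1 + t / T j) ≤ slo T t :=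
    (hT.summable ht).sum_le_tsum _ fun j _ => hT.log_nonneg ht j
  have h2 : ∀ j ∈ Finset.range k, Real.log (1 + t) ≤
      Real.log (1 + t / T j) + Real.log (T j) := by
    intro j _
    have h3 := hT.pos j
    have h4 := div_nonneg ht h3.le
    rw [← Real.log_mul (by linarith) h3.ne']
    refine Real.log_le_log (by linarith) ?_
    have h5 := hT.1 j
    have h6 : (1 + t / T j) * T j = T j + t := by
      field_simp
    linarith
  have h3 := Finset.sum_le_sum h2
  rw [Finset.sum_const, Finset.card_range, nsmul_eq_mul, Finset.sum_add_distrib] at h3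
  linarith

omit hT

theorem exists_slow {ι : Type*} (a t : ι → ℝ) (ha : ∀ i, 0 ≤ a i) (ht : ∀ i, 0 ≤ t i)
    (h : ∀ k : ℕ, Summable fun i => a i * (1 + t i) ^ k) :
    ∃ T : ℕ → ℝ, Adms T ∧ Summable fun i => a i * Real.exp (slo T (t i)) := by
  set S : ℕ → ℝ := fun k => ∑' i, a i * (1 + t i) ^ k with hS
  have h0 : ∀ k i, 0 ≤ a i * (1 + t i) ^ k := fun k i =>
    mul_nonneg (ha i) (pow_nonneg (by have := ht i; linarith) k)
  have hS0 : ∀ k, 0 ≤ S k := fun k => tsum_nonneg (h0 k)
  set T : ℕ → ℝ := fun j => 2 ^ (j + 1) * (1 + S (j + 1)) with hTd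
  have hT1 : ∀ j, 2 ^ (j + 1) ≤ T j := by
    intro j
    have h1 := hS0 (j + 1)
    have h2 : (0 : ℝ) < 2 ^ (j + 1) := by positivity
    simp only [hTd]
    nlinarith
  have hT : Adms T := by
    refine ⟨fun j => (one_le_pow₀ (by norm_num)).trans (hT1 j), ?_⟩
    refine Summable.of_nonneg_of_le (fun j => ?_) (fun j => ?_)
      ((summable_geometric_two).mul_left (1 / 2 : ℝ))
    · exact div_nonneg zero_le_one ((by positivity : (0 : ℝ) ≤ 2 ^ (j + 1)).trans (hT1 j))
    · have h2 := one_div_le_one_div_of_le (by positivity : (0 : ℝ) < 2 ^ (j + 1)) (hT1 j)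
      refine h2.trans (le_of_eq ?_)
      rw [pow_succ, one_div_pow]
      field_simp
  refine ⟨T, hT, ?_⟩
  -- partial products
  set P : ℕ → ι → ℝ := fun J i => ∏ j ∈ Finset.range J, (1 + t i / T j) with hP
  have hP0 : ∀ J i, 0 ≤ P J i := fun J i => Finset.prod_nonneg fun j _ => by
    have := div_nonneg (ht i) (hT.pos j).le
    linarith
  have hP1 : ∀ J i, P J i ≤ (1 + t i) ^ J := by
    intro J i
    simp only [hP]
    refine (Finset.prod_le_prod (fun j _ => ?_) (fun j _ => ?_)).trans
      (le_of_eq (by rw [Finset.prod_const, Finset.card_range]))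
    · have := div_nonneg (ht i) (hT.pos j).le
      linarith
    · have := div_le_self (ht i) (hT.1 j)
      linarith
  have hsum : ∀ (F : Finset ι) (J : ℕ), ∑ i ∈ F, a i * P J i ≤
      S 0 + ∑ j ∈ Finset.range J, (1 / 2 : ℝ) ^ (j + 1) := by
    intro F J
    induction J with
    | zero =>
      simp only [Finset.range_zero, Finset.sum_empty, add_zero]
      refine le_trans (Finset.sum_le_sum fun i _ => ?_) ((h 0).sum_le_tsum F fun i _ => h0 0 i)
      exact mul_le_mul_of_nonneg_left (hP1 0 i) (ha i)
    | succ J ih =>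
      rw [Finset.sum_range_succ, ← add_assoc]
      have h1 : ∀ i ∈ F, a i * P (J + 1) i = a i * P J i + (a i * (t i * P J i)) / T J := by
        intro i _
        simp only [hP]
        rw [Finset.prod_range_succ]
        ring
      rw [Finset.sum_congr rfl h1, Finset.sum_add_distrib]
      refine add_le_add ih ?_
      rw [← Finset.sum_div, div_le_iff₀ (hT.pos J)]
      have h2 : ∑ i ∈ F, a i * (t i * P J i) ≤ S (J + 1) := by
        refine le_trans (Finset.sum_le_sum fun i _ => ?_)
          ((h (J + 1)).sum_le_tsum F fun i _ => h0 (J + 1) i)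
        refine mul_le_mul_of_nonneg_left ?_ (ha i)
        rw [pow_succ, mul_comm]
        exact mul_le_mul (hP1 J i) (by linarith) (ht i)
          (pow_nonneg (by have := ht i; linarith) J)
      have h3 : (1 / 2 : ℝ) ^ (J + 1) * T J = 1 + S (J + 1) := by
        simp only [hTd]
        rw [← mul_assoc, ← mul_pow]
        norm_num
      rw [h3]
      linarith
  have hgeo : ∀ J, ∑ j ∈ Finset.range J, (1 / 2 : ℝ) ^ (j + 1) ≤ 1 := by
    intro J
    have h1 : ∑ j ∈ Finset.range J, (1 / 2 : ℝ) ^ (j + 1) = 1 - (1 / 2) ^ J := by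
      induction J with
      | zero => simp
      | succ J ih =>
        rw [Finset.sum_range_succ, ih, pow_succ]
        ring
    rw [h1]
    have h2 : (0 : ℝ) ≤ (1 / 2) ^ J := by positivity
    linarith
  have hlim : ∀ i, Filter.Tendsto (fun J => P J i) Filter.atTop
      (nhds (Real.exp (slo T (t i)))) := by
    intro i
    have h1 := (hT.summable (ht i)).hasSum.tendsto_sum_nat
    have h2 := (Real.continuous_exp.tendsto _).comp h1
    refine h2.congr fun J => ?_
    simp only [Function.comp_apply, hP]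
    rw [Real.exp_sum]
    refine Finset.prod_congr rfl fun j _ => Real.exp_log ?_
    have := div_nonneg (ht i) (hT.pos j).le
    linarith
  refine summable_of_sum_le (c := S 0 + 1)
    (fun i => mul_nonneg (ha i) (Real.exp_pos _).le) fun F => ?_
  have h1 : Filter.Tendsto (fun J => ∑ i ∈ F, a i * P J i) Filter.atTop
      (nhds (∑ i ∈ F, a i * Real.exp (slo T (t i)))) :=
    tendsto_finsetSum F fun i _ => (hlim i).const_mul (a i)
  refine le_of_tendsto' h1 fun J => (hsum F J).trans ?_
  have := hgeo J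
  linarith

/-- the logarithm of a sum -/
theorem log_sum_le {ι : Type*} (s : Finset ι) (a : ι → ℝ) (ha : ∀ i ∈ s, 0 ≤ a i) :
    Real.log (1 + ∑ i ∈ s, a i) ≤ ∑ i ∈ s, Real.log (1 + a i) := by
  classical
  induction s using Finset.induction_on with
  | empty => simp
  | insert b s hb ih =>
    rw [Finset.sum_insert hb, Finset.sum_insert hb]
    have h1 := ha b (Finset.mem_insert_self b s)
    have h2 : 0 ≤ ∑ i ∈ s, a i := Finset.sum_nonneg fun i hi => ha i (Finset.mem_insert_of_mem hi)
    have h3 := ih fun i hi => ha i (Finset.mem_insert_of_mem hi)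
    refine le_trans ?_ (add_le_add (le_refl (Real.log (1 + a b))) h3)
    rw [← Real.log_mul (by linarith) (by linarith)]
    refine Real.log_le_log (by linarith) ?_
    nlinarith [mul_nonneg h1 h2]

end Vale.Agent.P184.PG

end
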