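import Vale.Agent.P184.R4.G3
import Vale.Agent.P184.R4.Slow
import Vale.Agent.P184.R4.RDefs
import Vale.Agent.P184.R3.UMain

/-!
# From exponential decay with respect to slow length functions to rapid decay
-/

noncomputable section

namespace Vale.Agent.P184.PG

section

variable {G : Type*} [Group G] {L : G → ℝ} {T : ℕ → ℝ}

/-- the slow length function -/
def sL (T : ℕ → ℝ) (L : G → ℝ) (g : G) : ℝ := slo T (L g)

theorem sL_length (hL : IsLength L) (hT : Adms T) : IsLength (sL T L) := by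
  refine ⟨?_, fun g => ?_, fun g h => ?_⟩
  · unfold sL
    rw [hL.1, slo_zero]
  · unfold sL
    rw [hL.2.1]
  · unfold sL
    exact (slo_mono hT (hL.nonneg _) (hL.2.2 g h)).trans (slo_add hT (hL.nonneg g) (hL.nonneg h))

/-- polynomials in a sum of lengths and exponentials of the sum of slow lengths -/
theorem pow_le_exp (hT : Adms T) {ι : Type*} (s : Finset ι) (a : ι → ℝ) (ha : ∀ i ∈ s, 0 ≤ a i)
    (d : ℕ) {ε : ℝ} {k : ℕ} (hε : 0 < ε) (hk : d ≤ ε * k) :
    (1 + ∑ i ∈ s, a i) ^ d ≤ Real.exp (ε * (s.card * ∑ j ∈ Finset.range k, Real.log (T j))) *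
      Real.exp (ε * ∑ i ∈ s, slo T (a i)) := by
  have h0 : 0 ≤ ∑ i ∈ s, a i := Finset.sum_nonneg ha
  have h1 : Real.log (1 + ∑ i ∈ s, a i) ≤ ∑ i ∈ s, Real.log (1 + a i) := log_sum_le s a ha
  have h2 : k * ∑ i ∈ s, Real.log (1 + a i) ≤
      ∑ i ∈ s, slo T (a i) + s.card * ∑ j ∈ Finset.range k, Real.log (T j) := by
    rw [Finset.mul_sum]
    refine (Finset.sum_le_sum fun i hi => log_le_slo hT k (ha i hi)).trans (le_of_eq ?_)
    rw [Finset.sum_add_distrib, Finset.sum_const, nsmul_eq_mul]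
  have h3 : 0 ≤ Real.log (1 + ∑ i ∈ s, a i) := Real.log_nonneg (by linarith)
  have h4 : (1 + ∑ i ∈ s, a i) ^ d = Real.exp (d * Real.log (1 + ∑ i ∈ s, a i)) := by
    rw [← Real.log_pow, Real.exp_log (by positivity)]
  rw [h4, ← Real.exp_add]
  refine Real.exp_le_exp.2 ?_
  have h5 : (d : ℝ) * Real.log (1 + ∑ i ∈ s, a i) ≤ ε * k * Real.log (1 + ∑ i ∈ s, a i) :=
    mul_le_mul_of_nonneg_right hk h3
  have h6 : (k : ℝ) * Real.log (1 + ∑ i ∈ s, a i) ≤ k * ∑ i ∈ s, Real.log (1 + a i) :=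
    mul_le_mul_of_nonneg_left h1 (Nat.cast_nonneg k)
  have h7 := mul_le_mul_of_nonneg_left (h6.trans h2) hε.le
  linarith

/-- Polynomial growth is subexponential growth for the slow length functions. -/
theorem subExp_slow (hL : IsLength L) (hT : Adms T) {x : G} {n : ℕ} {F : (Fin n → G) → ℝ}
    (hF : PolyB x L F) : SubExp x (sL T L) F := by
  intro ε hε
  obtain ⟨C, d, hC0, hC⟩ := hF.out hL
  obtain ⟨k, hk⟩ := exists_nat_ge ((d : ℝ) / ε)
  have hk' : (d : ℝ) ≤ ε * k := by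
    rw [div_le_iff₀ hε] at hk
    linarith
  -- the size as one sum
  set Q : Finset ((Fin n × Fin n) ⊕ Fin n) := Finset.univ with hQ
  have hsiz : ∀ (l : G → ℝ) (p : Fin n → G), siz x l p = ∑ z ∈ Q,
      l (Sum.elim (fun z : Fin n × Fin n => (p z.1)⁻¹ * p z.2) (fun i => (p i)⁻¹ * x * p i) z) := by
    intro l p
    rw [hQ, Fintype.sum_sum_type, Fintype.sum_prod_type]
    rfl
  refine ⟨C * Real.exp (ε * (Q.card * ∑ j ∈ Finset.range k, Real.log (T j))), fun p => ?_⟩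
  refine (hC p).trans ?_
  rw [mul_assoc]
  refine mul_le_mul_of_nonneg_left ?_ hC0
  rw [hsiz L p, hsiz (sL T L) p]
  exact pow_le_exp hT Q _ (fun z _ => hL.nonneg _) d hε hk'

theorem rapChain_of_exp (hL : IsLength L) (hT : Adms T) {n : ℕ} {c : (Fin n → G) → ℂ}
    (h : Un.ExpChain (sL T L) c) : Un.RapChain L c := by
  intro d
  obtain ⟨ε, hε, h⟩ := h
  obtain ⟨k, hk⟩ := exists_nat_ge ((d : ℝ) / ε)
  have hk' : (d : ℝ) ≤ ε * k := by
    rw [div_le_iff₀ hε] at hk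
    linarith
  set Q : Finset (Fin n) := Finset.univ with hQ
  have hn : ∀ g : Fin n → G, 0 ≤ 1 + ∑ i, L (g i) := fun g => by
    have := Finset.sum_nonneg (s := Finset.univ) (f := fun i => L (g i)) fun i _ => hL.nonneg (g i)
    linarith
  refine Summable.of_nonneg_of_le (fun g => mul_nonneg (norm_nonneg _) (pow_nonneg (hn g) d))
    (fun g => ?_) (h.mul_left (Real.exp (ε * (Q.card * ∑ j ∈ Finset.range k, Real.log (T j)))))
  have h1 := pow_le_exp hT Q (fun i => L (g i)) (fun i _ => hL.nonneg _) d hε hk'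
  have h2 := mul_le_mul_of_nonneg_left h1 (norm_nonneg (c g))
  refine h2.trans (le_of_eq ?_)
  unfold sL
  ring

theorem isRapBdy_of_exp (hL : IsLength L) (hT : Adms T) {x : G} {n : ℕ}
    {c : (Fin (n + 1) → G) → ℂ} (h : Un.IsCycBdy (sL T L) x c) : Un.IsRapBdy L x c := by
  obtain ⟨b, a, h1, h2, h3, h4, h5⟩ := h
  exact ⟨b, a, rapChain_of_exp hL hT h1, rapChain_of_exp hL hT h2, h3, h4, h5⟩

/-- a common slow length function for finitely many rapidly decaying matrices -/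
theorem exists_slow_mat (hL : IsLength L) {q : ℕ} {κ : Type*} [Fintype κ] (e : κ → Un.Mat G q)
    (he : ∀ z, Un.RapDecay L (e z)) : ∃ T : ℕ → ℝ, Adms T ∧ ∀ z, Un.ExpDecay (sL T L) (e z) := by
  set a : G → ℝ := fun g => ∑ z, ∑ i, ∑ j, ‖e z i j g‖ with ha
  have h1 : ∀ k : ℕ, Summable fun g => a g * (1 + L g) ^ k := by
    intro k
    simp only [ha, Finset.sum_mul]
    exact summable_sum fun z _ => summable_sum fun i _ => summable_sum fun j _ => he z k i j
  obtain ⟨T, hT, h2⟩ := exists_slow a L (fun g => by simp only [ha]; positivity)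
    (fun g => hL.nonneg g) h1
  refine ⟨T, hT, fun z => ⟨1, one_pos, fun i j => ?_⟩⟩
  refine Summable.of_nonneg_of_le (fun g => by positivity) (fun g => ?_) h2
  rw [one_mul]
  refine mul_le_mul_of_nonneg_right ?_ (Real.exp_pos _).le
  simp only [ha]
  have e1 : ‖e z i j g‖ ≤ ∑ j, ‖e z i j g‖ :=
    Finset.single_le_sum (f := fun j => ‖e z i j g‖) (fun _ _ => norm_nonneg _)
      (Finset.mem_univ j)
  have e2 : ∑ j, ‖e z i j g‖ ≤ ∑ i, ∑ j, ‖e z i j g‖ :=
    Finset.single_le_sum (f := fun i => ∑ j, ‖e z i j g‖)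
      (fun _ _ => Finset.sum_nonneg fun _ _ => norm_nonneg _) (Finset.mem_univ i)
  have e3 : ∑ i, ∑ j, ‖e z i j g‖ ≤ ∑ z, ∑ i, ∑ j, ‖e z i j g‖ :=
    Finset.single_le_sum (f := fun z => ∑ i, ∑ j, ‖e z i j g‖)
      (fun _ _ => Finset.sum_nonneg fun _ _ => Finset.sum_nonneg fun _ _ => norm_nonneg _)
      (Finset.mem_univ z)
  exact e1.trans (e2.trans e3)

theorem rapDecay_of_exp (hL : IsLength L) {q : ℕ} {a : Un.Mat G q} (h : Un.ExpDecay L a) :
    Un.RapDecay L a := by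
  obtain ⟨ε, hε, h⟩ := h
  intro k i j
  refine Summable.of_nonneg_of_le (fun g => ?_) (fun g => ?_)
    ((h i j).mul_left (k.factorial / ε ^ k * Real.exp ε))
  · have := hL.nonneg g
    positivity
  · have h0 := hL.nonneg g
    have h1 := Real.pow_div_factorial_le_exp (ε * (1 + L g)) (by positivity) k
    have h2 : (1 + L g) ^ k ≤ k.factorial / ε ^ k * Real.exp (ε * (1 + L g)) := by
      rw [div_le_iff₀ (by positivity)] at h1
      rw [mul_pow] at h1
      rw [div_mul_eq_mul_div, le_div_iff₀ (by positivity)]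
      linarith
    refine (mul_le_mul_of_nonneg_left h2 (norm_nonneg _)).trans (le_of_eq ?_)
    rw [mul_add, mul_one, Real.exp_add]
    ring

theorem rapEven_of_pol (hL : IsLength L) {x : G} {n : ℕ} (hn : 0 < n)
    {ψ : (Fin (2 * n) → G) → ℝ} (hψ1 : CInv x ψ) (hψ2 : PolyB x L ψ) (hψ3 : CycAnti x ψ)
    (hψ4 : ∀ p, DData.cob ψ p = 1) : Un.RapEven L x := by
  intro m q e he hdec
  obtain ⟨T, hT, h1⟩ := exists_slow_mat hL (κ := Unit) (fun _ => e) (fun _ => hdec)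
  have h2 := evenBdy_of_cyc (sL_length hL hT) hn hψ1 (subExp_slow hL hT hψ2) hψ3 hψ4 m q e he
    (h1 ())
  exact isRapBdy_of_exp hL hT h2

theorem rapOdd_of_pol (hL : IsLength L) {x : G} {n : ℕ} (hn : 0 < n)
    {ψ : (Fin (2 * n) → G) → ℝ} (hψ1 : CInv x ψ) (hψ2 : PolyB x L ψ) (hψ3 : CycAnti x ψ)
    (hψ4 : ∀ p, DData.cob ψ p = 1) : Un.RapOdd L x := by
  intro m q u v huv hu hv
  obtain ⟨T, hT, h1⟩ := exists_slow_mat hL (κ := Bool) (fun b => cond b u v)
    (fun b => by cases b <;> assumption)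
  have h2 := Odd.oddBdy_of_cyc (sL_length hL hT) hn hψ1 (subExp_slow hL hT hψ2) hψ3 hψ4 m q u v
    huv (h1 true) (h1 false)
  exact isRapBdy_of_exp hL hT h2

theorem PolyB.dom {x : G} {L' : G → ℝ} (hL : IsLength L) (hL' : IsLength L') {c : ℝ} (hc : 0 ≤ c)
    (h : ∀ g, L' g ≤ c * L g) {n : ℕ} {F : (Fin n → G) → ℝ}
    (hF : PolyB x L' F) : PolyB x L F := by
  refine hF.of_lin (fun p => p) hc fun p => ?_
  rw [abs_of_nonneg (siz_nonneg hL _), abs_of_nonneg (siz_nonneg hL' _)]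
  have h1 : siz x L' p ≤ c * siz x L p := by
    unfold siz
    rw [mul_add, Finset.mul_sum, Finset.mul_sum]
    refine add_le_add (Finset.sum_le_sum fun i _ => ?_) (Finset.sum_le_sum fun i _ => h _)
    rw [Finset.mul_sum]
    exact Finset.sum_le_sum fun j _ => h _
  exact h1.trans (mul_le_mul_of_nonneg_left (by linarith) hc)

/-- The conclusion for all length functions dominating the one in the definition. -/
theorem rap_of_cycPol {x : G} (h : CycPol x) :
    ∃ L₀ : G → ℝ, IsLength L₀ ∧ ∀ L, IsLength L → (∃ c : ℝ, ∀ g, L₀ g ≤ c * L g) →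
      Un.RapEven L x ∧ Un.RapOdd L x := by
  obtain ⟨L₀, hL₀, n, ψ, hn, h1, h2, h3, h4⟩ := h
  refine ⟨L₀, hL₀, fun L hL ⟨c, hc⟩ => ?_⟩
  have h5 := h2.dom hL hL₀ (c := max c 0) (le_max_right _ _) (fun g =>
    (hc g).trans (mul_le_mul_of_nonneg_right (le_max_left _ _) (hL.nonneg g)))
  exact ⟨rapEven_of_pol hL hn h1 h5 h3 h4, rapOdd_of_pol hL hn h1 h5 h3 h4⟩

theorem polyB_iff (hL : IsLength L) {x : G} {n : ℕ} {F : (Fin n → G) → ℝ} :
    PolyB x L F ↔ ∃ (C : ℝ) (d : ℕ), ∀ p : Fin n → G, |F p| ≤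
      C * (1 + ((∑ i, ∑ j, L ((p i)⁻¹ * p j)) + ∑ i, L ((p i)⁻¹ * x * p i))) ^ d := by
  unfold PolyB
  refine exists_congr fun C => exists_congr fun d => forall_congr' fun p => ?_
  rw [abs_of_nonneg (siz_nonneg hL p)]
  rfl

theorem polyTame_iff {x : G} : Un.PolyTame x ↔ CycPol x := by
  constructor
  · rintro ⟨L, hL, n, ψ, hn, h1, h2, h3, h4⟩
    exact ⟨L, hL, n, ψ, hn, h2, (polyB_iff hL).2 h1, h3, h4⟩
  · rintro ⟨L, hL, n, ψ, hn, h1, h2, h3, h4⟩
    exact ⟨L, hL, n, ψ, hn, (polyB_iff hL).1 h2, h1, h3, h4⟩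

theorem polyLoc_iff {x : G} : Un.PolyLoc x ↔ LocPol x :=
  forall_congr' fun _ => forall_congr' fun _ => polyTame_iff

theorem cycTame_of_cycPol {x : G} (h : CycPol x) : CycTame x := by
  obtain ⟨L, hL, n, ψ, hn, h1, h2, h3, h4⟩ := h
  obtain ⟨C, d, _, h5⟩ := h2.out hL
  exact ⟨L, hL, n, ψ, hn, h1, SubExp.of_poly hL C d h5, h3, h4⟩

theorem locCyc_of_locPol {x : G} (h : LocPol x) : LocCyc x :=
  fun S hS => cycTame_of_cycPol (h S hS)

theorem cycPol_of_fg (hG : Group.FG G) {x : G} (h : LocPol x) : CycPol x := by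
  obtain ⟨S, hS⟩ := Group.fg_def.1 hG
  have hx : x ∈ Subgroup.closure (S : Set G) := by rw [hS]; exact Subgroup.mem_top x
  let f : G →* Subgroup.closure (S : Set G) :=
    (MonoidHom.id G).codRestrict (Subgroup.closure (S : Set G))
      (fun g => by rw [hS]; exact Subgroup.mem_top _)
  exact CycPol.map f (h S hx)

end

end Vale.Agent.P184.PG

namespace Vale.Agent.P184.Un

open Vale.Agent.P184.PG

theorem rapBass {G : Type*} [Group G] (hG : Group.FG G) (h : PolyInf G) : RapBass G := by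
  have hT : TameInf G := fun x hx => locTame_iff.2 (S.locTame_iff.2
    (locCyc_of_locPol (polyLoc_iff.1 (h x hx))))
  obtain ⟨L, hL, hdom, h0, h1, _⟩ := homBass hG hT
  have hL' : IsLength L := hL
  refine ⟨L, hL, hdom, fun q e he => ?_, fun q u u' hu => ?_, fun x hx => ?_⟩
  · obtain ⟨f, u, v, hf, hdec, h2⟩ := h0 q e he
    exact ⟨f, u, v, hf, rapDecay_of_exp hL' hdec, h2⟩
  · obtain ⟨v, v', w, hv, hd1, hd2, h2⟩ := h1 q u u' hu
    exact ⟨v, v', w, hv, rapDecay_of_exp hL' hd1, rapDecay_of_exp hL' hd2, h2⟩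
  · obtain ⟨L₀, hL₀, h2⟩ := rap_of_cycPol (cycPol_of_fg hG (polyLoc_iff.1 (h x hx)))
    exact h2 L hL' (hdom L₀ hL₀)

end Vale.Agent.P184.Un

end
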